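import Vale.Agent.P280.N.A06
import Vale.Agent.P280.N.A12

/-! P280, stage 2: weights of polar monomials. -/

open DirectSum Vale.Agent.P280.T Vale.Agent.P280.H127 Vale.Agent.P280.N Vale.Agent.P280.H347
open scoped Matrix

namespace Vale.Agent.P280.H900

variable {r : ℕ} {R : Type} [CommRing R] [IsDomain R] [Algebra ℂ R]
variable {𝒜 : ℕ × (Fin r → ℤ) → Submodule ℂ R} [GradedAlgebra 𝒜]

omit [CommRing R] [IsDomain R] [Algebra ℂ R] in
theorem exists_list {n : ℕ} (wt : Fin n → Fin r → ℤ) (m : Fin n → ℕ)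
    (P : (Fin r → ℤ) → Prop) (h : ∀ i, m i ≠ 0 → wt i ≠ 0 → P (wt i)) :
    ∃ M : List (Fin r → ℤ), (∀ ω ∈ M, P ω) ∧ M.sum = ∑ i, m i • wt i := by
  classical
  have key : ∀ s : Finset (Fin n), ∃ M : List (Fin r → ℤ), (∀ ω ∈ M, P ω) ∧
      M.sum = ∑ i ∈ s, m i • wt i := by
    intro s
    induction s using Finset.induction_on with
    | empty => exact ⟨[], by simp, by simp⟩
    | insert a s ha ih =>
      obtain ⟨M, hM, hs⟩ := ih
      by_cases h0 : m a = 0 ∨ wt a = 0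
      · refine ⟨M, hM, ?_⟩
        rw [Finset.sum_insert ha, hs]
        rcases h0 with h0 | h0
        · rw [h0, zero_smul, zero_add]
        · rw [h0, smul_zero, zero_add]
      · push Not at h0
        refine ⟨List.replicate (m a) (wt a) ++ M, ?_, ?_⟩
        · intro ω hω
          rcases List.mem_append.1 hω with h1 | h1
          · rw [List.eq_of_mem_replicate h1]
            exact h a h0.1 h0.2
          · exact hM ω h1
        · rw [List.sum_append, List.sum_replicate, hs, Finset.sum_insert ha]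
  exact key Finset.univ

theorem lemmaM_fin (H : Hyp 𝒜) (y : FP 𝒜) {k : ℕ} {w : Fin k → Derivation ℂ R R}
    {χ : Fin k → Fin r → ℤ} (hw : Ind y (fun i => toVF (w i)) χ) (l : (Fin r → ℤ) →+ ℤ)
    {lam b : Fin r → ℤ} {dz : ℕ} {z : R} (hz : Crd y (-b) dz z)
    (hneg : ∀ ψ, y.Pi ψ → ψ ≠ -b → 0 ≤ l ψ) (hlb : 0 < l b)
    (hno : ∀ (k : ℕ) (ψ : Fin r → ℤ) (M : List (Fin r → ℤ)), 1 ≤ k →
      (ψ = 0 ∨ (y.Pi ψ ∧ ∀ i, ψ ≠ χ i)) → (∀ ω ∈ M, y.Pi ω ∧ ω ≠ -b) →
      ψ ≠ lam + k • b + M.sum) {v : VF R} (hv : HV 𝒜 lam v) (K : ℕ)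
    (hr : RM y.q (Set.range fun i => toVF (w i)) ((iK z) ^ K • v)) :
    RM y.q (Set.range fun i => toVF (w i)) v := by
  classical
  have hX := H.hX
  have := noeth hX
  obtain ⟨n, u, wt, ι, G, hn, hι, hdet, hPi, hout, hinj⟩ := exists_data H hw
  obtain ⟨N, γ, g, D, hg, hg0, hD, hDh⟩ := H900.exists_den hX hv
  have hF : Fix (coarse 𝒜 (rl (AddMonoidHom.id (Fin r → ℤ)) y.ν)) y.q := fix_of_isFixed y.fix
  set h : Fin k → R := fun j => u (ι j) with hh
  have hdet0 : (wm w h).det ≠ 0 := by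
    intro h0
    rw [h0, map_zero] at hdet
    exact hdet rfl
  obtain ⟨hz1, hz2, t, ht, htw, htz⟩ := hz
  have hb0 : -b ≠ 0 := by
    intro h0
    have : b = 0 := neg_eq_zero.1 h0
    rw [this, map_zero] at hlb
    exact lt_irrefl _ hlb
  have ht0 : t ≠ 0 := by
    rintro rfl
    exact htz rfl
  have hPb : y.Pi (-b) := tangentWeight_of_ne y.fix hb0 ht htw ht0
  obtain ⟨i0, hi0⟩ := wt_of_tangentWeight hX y.fix G hn hPb
  -- `z` is a unit times `u i0`
  have hlneg : ∀ j, j ≠ i0 → 0 ≤ l (wt j) := by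
    intro j hj
    by_cases h0 : wt j = 0
    · rw [h0, map_zero]
    · refine hneg _ (hPi j h0) fun h1 => hj ?_
      exact hinj j i0 h0 (by rw [h1, hi0])
  have hzc : z ∈ coarse 𝒜 (rl (AddMonoidHom.id (Fin r → ℤ)) y.ν) (-b) := by
    refine mem_coarse hz1 ?_
    rw [rl_apply, AddMonoidHom.id_apply, add_sub_cancel_left]
  obtain ⟨s2, hs2, hs2'⟩ := lemmaA hF G (C := {κ | l κ < 0}) (J := {i0}) (by
    intro κ hκ j hj
    have h1 : l κ < 0 := hκ
    have h2 := hlneg j hj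
    constructor
    · show l (κ - wt j) < 0
      rw [map_sub]
      linarith
    · intro h3
      rw [sub_eq_zero.1 h3] at h1
      linarith) (w := -b) (by
        show l (-b) < 0
        rw [map_neg]
        linarith) hzc (mem_mx.2 hz2)
  rw [Set.image_singleton] at hs2'
  obtain ⟨y2, hy2⟩ := Ideal.mem_span_singleton'.1 hs2'
  have hy2q : y.q y2 ≠ 0 := by
    intro h0
    have h1 := congrArg t hy2
    rw [ht, ht, h0, G.zero i0, hs2, hz2, zero_mul, zero_mul, one_mul, zero_mul, add_zero,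
      add_zero] at h1
    exact htz h1.symm
  have hu0 : u i0 ≠ 0 := by
    intro h0
    rw [h0, mul_zero] at hy2
    have hs20 : s2 ≠ 0 := by
      rintro rfl
      rw [map_zero] at hs2
      exact zero_ne_one hs2
    have hz0 : z = 0 := (mul_eq_zero.1 hy2.symm).resolve_left hs20
    rw [hz0, map_zero] at htz
    exact htz rfl
  -- the pole
  have hDK : ∀ x, iK ((z ^ K • D) x) = iK g * ((iK z) ^ K • v) (iK x) := by
    intro x
    rw [Derivation.smul_apply, Derivation.smul_apply, smul_eq_mul, smul_eq_mul, iK_mul, hD,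
      iK_pow]
    ring
  rw [rm_iff_regMod hX hg0 hDK, regMod_iff hg0 hdet] at hr
  obtain ⟨s1, hs1, hs1'⟩ := hr
  have hwc : ∀ i κ, ∀ x ∈ coarse 𝒜 (rl (AddMonoidHom.id (Fin r → ℤ)) y.ν) κ,
      w i x ∈ coarse 𝒜 (rl (AddMonoidHom.id (Fin r → ℤ)) y.ν) (κ - χ i) := by
    intro i κ x hx
    have h1 := hv_coarse (y := y) (w := w i) (N := 0) (γ := 0) (χ := χ i) (by
      intro d m x hx
      rw [add_zero, add_zero]
      exact (hw.hv i).isHField d m x hx) κ x hx
    rwa [zero_smul, sub_zero, add_zero] at h1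
  have hA : ∀ i j, wm w h i j ∈ coarse 𝒜 (rl (AddMonoidHom.id (Fin r → ℤ)) y.ν)
      (wt (ι j) - χ i) := fun i j => hwc i _ _ (G.hom (ι j))
  obtain ⟨s, hs, hs'⟩ := pole hF G (i0 := i0) hu0 (g := g * (wm w h).det)
    (γ := (γ - N • y.ν) + (∑ j, wt (ι j) - ∑ i, χ i)) (lam := lam)
    (SetLike.mul_mem_graded (mem_coarse hg rfl) (det_mem hA)) (mul_ne_zero hg0 hdet0)
    (nf w h D) (by
      intro κ x hx
      have h1 := nf_mem (𝒜 := coarse 𝒜 (rl (AddMonoidHom.id (Fin r → ℤ)) y.ν)) (D := D)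
        (τ := (γ - N • y.ν) - lam) hwc (fun j => G.hom (ι j)) (by
        intro κ x hx
        rw [← add_sub_assoc]
        exact hv_coarse hDh κ x hx) hx
      convert h1 using 2
      abel) (by
      refine ⟨K, s1 * y2 ^ K, ?_, ?_⟩
      · rw [map_mul, map_pow]
        exact mul_ne_zero hs1 (pow_ne_zero _ hy2q)
      · intro x
        have h1 := hs1' x
        rw [nf_smul] at h1
        have h2 : s1 * y2 ^ K * u i0 ^ K * nf w h D x = s2 ^ K * (s1 * (z ^ K * nf w h D x)) := by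
          have h3 : y2 ^ K * u i0 ^ K = s2 ^ K * z ^ K := by
            rw [← mul_pow, ← mul_pow, hy2]
          linear_combination s1 * nf w h D x * h3
        rw [h2]
        exact h1.mul_left _) (by
      intro k' hk' i
      by_cases hi : ∃ j, ι j = i
      · obtain ⟨j, rfl⟩ := hi
        exact Or.inl (nf_eq_zero w h D j)
      · right
        push Not at hi
        intro c hc heq
        obtain ⟨M, hM, hMs⟩ := exists_list wt c (fun ω => y.Pi ω ∧ ω ≠ -b) (by
          intro j hj h0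
          refine ⟨hPi j h0, fun h1 => ?_⟩
          have h2 := hinj j i0 h0 (by rw [h1, hi0])
          rw [h2] at hj
          exact hj hc)
        refine hno k' (wt i) M hk' ?_ hM ?_
        · by_cases h0 : wt i = 0
          · exact Or.inl h0
          · exact Or.inr ⟨hPi i h0, hout i hi h0⟩
        · rw [hMs, ← heq, hi0, smul_neg]
          abel)
  rw [rm_iff_regMod hX hg0 hD, regMod_iff hg0 hdet]
  exact ⟨s, hs, hs'⟩

/-- Lemma M: Lemma L with the exact condition on the weights (no polar monomial). -/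
theorem lemmaM (H : Hyp 𝒜) (y : FP 𝒜) {ι : Type} [Fintype ι] {w : ι → VF R}
    {χ : ι → Fin r → ℤ} (hw : Ind y w χ) (c : (Fin r → ℤ) →+ ℤ) {lam b : Fin r → ℤ} {dz : ℕ}
    {z : R} (hz : Crd y (-b) dz z) (hoth : ∀ ψ, y.Pi ψ → ψ ≠ -b → 0 ≤ c ψ) (hcb : 0 < c b)
    (hno : ∀ (k : ℕ) (ψ : Fin r → ℤ) (M : List (Fin r → ℤ)), 1 ≤ k →
      (ψ = 0 ∨ (y.Pi ψ ∧ ∀ i, ψ ≠ χ i)) → (∀ ω ∈ M, y.Pi ω ∧ ω ≠ -b) →
      ψ ≠ lam + k • b + M.sum) {v : VF R} (hv : HV 𝒜 lam v) (k : ℕ)
    (hr : RM y.q (Set.range w) ((iK z) ^ k • v)) : RM y.q (Set.range w) v := by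
  classical
  have hD0 : ∀ i, ∃ D : Derivation ℂ R R, toVF D = w i := fun i => (hw.glob i).exists_der
  choose D hD using hD0
  obtain rfl : w = fun i => toVF (D i) := funext fun i => (hD i).symm
  let e := (Fintype.equivFin ι).symm
  have hI : Ind y (fun k => toVF (D (e k))) fun k => χ (e k) := ind_reindex hw e
  have hrange : (Set.range fun i => toVF (D i)) = Set.range fun k => toVF (D (e k)) :=
    (e.surjective.range_comp fun i => toVF (D i)).symm
  rw [hrange] at hr ⊢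
  refine lemmaM_fin H y hI c hz hoth hcb (fun k' ψ M h1 h2 h3 => hno k' ψ M h1 ?_ h3) hv k hr
  rcases h2 with h2 | ⟨h2, h4⟩
  · exact Or.inl h2
  · refine Or.inr ⟨h2, fun i => ?_⟩
    have := h4 (e.symm i)
    rwa [Equiv.apply_symm_apply] at this

/-- A nonzero regular homogeneous function: its weight is a sum of tangent weights. -/
theorem mon0 (H : Hyp 𝒜) (y : FP 𝒜) {d : ℤ} {m : Fin r → ℤ} {x : FractionRing R}
    (hx : HK 𝒜 d m x) (hr : Rg y.q x) (h0 : x ≠ 0) :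
    ∃ M : List (Fin r → ℤ), (∀ ω ∈ M, y.Pi ω) ∧ m = d • y.ν + M.sum := by
  by_contra hcon
  push Not at hcon
  have := noeth H.hX
  have hF := fix_of_isFixed y.fix
  obtain ⟨n, u, wt, G, hn⟩ := exists_params_T H.hX y.nv hF
  obtain ⟨a, s, hs, e⟩ := hr
  refine h0 (H674.zero_of_regF hF G (A06.homK hx y.ν) ⟨s, hs, a, e⟩ ?_)
  intro k hk
  obtain ⟨M, hM, hMs⟩ := exists_list wt k (fun ω => y.Pi ω)
    (fun j _ h0 => tangentWeight_of_wt H.hX y.fix G hn h0)
  refine hcon M hM ?_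
  rw [hMs, ← hk, add_sub_cancel]

/-- The weight of a homogeneous function with a pole along the coordinate `z`. -/
theorem xmon (H : Hyp 𝒜) (y : FP 𝒜) {b : Fin r → ℤ} {dz : ℕ} {z : R}
    (hz : Crd y (-b) dz z) {d : ℤ} {m : Fin r → ℤ} {x : FractionRing R}
    (hx : HK 𝒜 d m x) {k : ℕ} (hk : Rg y.q ((iK z) ^ k * x)) (hn : ¬ Rg y.q x) :
    ∃ (l : ℕ) (M : List (Fin r → ℤ)), 1 ≤ l ∧ (∀ ω ∈ M, y.Pi ω ∧ ω ≠ -b) ∧
      m = d • y.ν + l • b + M.sum := by
  by_contra hcon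
  push Not at hcon
  have hz0 : z ≠ 0 := by
    rintro rfl
    obtain ⟨-, -, t, -, -, h⟩ := hz
    exact h (map_zero t)
  have := noeth H.hX
  have hF := fix_of_isFixed y.fix
  obtain ⟨n, u, wt, i0, G, hu, hw, hwt⟩ := A06.exists_gens_crd H y hz
  obtain ⟨a, s, hs, e⟩ := hk
  have key : H674.RegF y.q x := by
    refine H674.regF_of_pole hF G (A06.homK hx y.ν) (i0 := i0) (by rw [hu]; exact hz0)
      ⟨k, s, hs, a, ?_⟩ ?_
    · rw [hu, map_pow]
      exact e
    · intro l mm hl hmm h1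
      obtain ⟨M, hM, hMs⟩ := exists_list wt mm (fun ω => y.Pi ω ∧ ω ≠ -b) (by
        intro j hj h0
        have hji : j ≠ i0 := by
          rintro rfl
          exact hj hmm
        exact ⟨(hwt j hji).2 h0, (hwt j hji).1⟩)
      refine hcon l M hl hM ?_
      rw [hMs, ← h1, hw, smul_neg]
      abel
  obtain ⟨s', hs', a', e'⟩ := key
  exact hn ⟨a', s', hs', e'⟩

end Vale.Agent.P280.H900
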