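import Vale.Agent.P280.H900.Mon

/-! P280, stage 2: one-dimensional polar parts. -/

open DirectSum Vale.Agent.P280.T Vale.Agent.P280.H127 Vale.Agent.P280.N

namespace Vale.Agent.P280.H900

variable {r : ℕ} {R : Type} [CommRing R] [IsDomain R] [Algebra ℂ R]
variable {𝒜 : ℕ × (Fin r → ℤ) → Submodule ℂ R} [GradedAlgebra 𝒜]

/-- `x` is divisible by `z` in the local ring. -/
def Dvz (q : R →ₐ[ℂ] ℂ) (z : R) (x : FractionRing R) : Prop := ∃ x', Rg q x' ∧ x = iK z * x'

omit [IsDomain R] in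
theorem Dvz.zero [IsDomain R] {q : R →ₐ[ℂ] ℂ} {z : R} : Dvz q z 0 := ⟨0, Rg.zero, by rw [mul_zero]⟩

theorem Dvz.add {q : R →ₐ[ℂ] ℂ} {z : R} {x x' : FractionRing R} (h : Dvz q z x)
    (h' : Dvz q z x') : Dvz q z (x + x') := by
  obtain ⟨a, ha, rfl⟩ := h
  obtain ⟨b, hb, rfl⟩ := h'
  exact ⟨a + b, ha.add hb, by ring⟩

theorem Dvz.smul {q : R →ₐ[ℂ] ℂ} {z : R} {x : FractionRing R} (h : Dvz q z x) (α : ℂ) :
    Dvz q z (α • x) := by
  obtain ⟨a, ha, rfl⟩ := h
  exact ⟨α • a, ha.smul α, by rw [mul_smul_comm]⟩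

theorem Dvz.mul {q : R →ₐ[ℂ] ℂ} {z : R} {x : FractionRing R} (h : Dvz q z x)
    {y : FractionRing R} (hy : Rg q y) : Dvz q z (y * x) := by
  obtain ⟨a, ha, rfl⟩ := h
  exact ⟨y * a, hy.mul ha, by ring⟩

theorem Dvz.self {q : R →ₐ[ℂ] ℂ} {z : R} {y : FractionRing R} (hy : Rg q y) :
    Dvz q z (iK z * y) := ⟨y, hy, rfl⟩

theorem Dvz.sum {q : R →ₐ[ℂ] ℂ} {z : R} {ι : Type} (s : Finset ι) {x : ι → FractionRing R}
    (h : ∀ i ∈ s, Dvz q z (x i)) : Dvz q z (∑ i ∈ s, x i) := by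
  classical
  induction s using Finset.induction_on with
  | empty =>
    rw [Finset.sum_empty]
    exact Dvz.zero
  | insert a s ha ih =>
    rw [Finset.sum_insert ha]
    exact (h a (Finset.mem_insert_self _ _)).add
      (ih fun i hi => h i (Finset.mem_insert_of_mem hi))

/-- Coordinates which contain `z`. -/
theorem coords_z (H : Hyp 𝒜) (y : FP 𝒜) {b : Fin r → ℤ} {dz : ℕ} {z : R}
    (hz : Crd y (-b) dz z) : ∃ (n : ℕ) (χ : Fin n → Fin r → ℤ) (i0 : Fin n) (du : Fin n → ℕ)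
      (u : Fin n → R), Function.Injective χ ∧ (∀ ψ, y.Pi ψ ↔ ∃ i, χ i = ψ) ∧ χ i0 = -b ∧
      u i0 = z ∧ ∀ (d : ℤ) (m : Fin r → ℤ) (x : FractionRing R), HK 𝒜 d m x → Val y.q x 0 →
        ∃ x' : Fin n → FractionRing R, (∀ i, Rg y.q (x' i) ∧
          HK 𝒜 (d - du i) (m - (du i • y.ν + χ i)) (x' i)) ∧ x = ∑ i, iK (u i) * x' i := by
  classical
  obtain ⟨n, χ, hinj, hpi, hex, hco⟩ := coords H y
  choose du u hu using hex
  obtain ⟨i0, hi0⟩ := (hpi (-b)).1 (A06.crd_pi hz)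
  refine ⟨n, χ, i0, Function.update du i0 dz, Function.update u i0 z, hinj, hpi, hi0,
    Function.update_self .., hco _ _ ?_⟩
  intro i
  by_cases hi : i = i0
  · subst hi
    rw [Function.update_self, Function.update_self, hi0]
    exact hz
  · rw [Function.update_of_ne hi, Function.update_of_ne hi]
    exact hu i

/-- A regular homogeneous function which is not divisible by `z` has a monomial without `z`. -/
theorem mon_aux (H : Hyp 𝒜) (y : FP 𝒜) (c : (Fin r → ℤ) →+ ℤ) {b : Fin r → ℤ}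
    (hoth : ∀ ψ, y.Pi ψ → ψ ≠ -b → 0 < c ψ) {dz : ℕ} {z : R} (hz : Crd y (-b) dz z) :
    ∀ (n : ℕ) (d : ℤ) (m : Fin r → ℤ) (x : FractionRing R), HK 𝒜 d m x → Rg y.q x →
      c m - d * c y.ν ≤ n → ¬ Dvz y.q z x →
      ∃ M : List (Fin r → ℤ), (∀ ω ∈ M, y.Pi ω ∧ ω ≠ -b) ∧ m = d • y.ν + M.sum := by
  intro n
  induction n using Nat.strong_induction_on with
  | _ n ih =>
    intro d m x hx hr hn hnd
    have hge : d * c y.ν ≤ c m := by
      by_contra hlt
      push Not at hlt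
      exact hnd (lf2 H y c (fun ψ h1 h2 => (hoth ψ h1 h2).le) hz hx hr hlt)
    obtain ⟨c0, hc0⟩ := hr.val
    by_cases h0 : c0 = 0
    · subst h0
      obtain ⟨k, χ, i0, du, u, hinj, hpi, hi0, hui, hco⟩ := coords_z H y hz
      obtain ⟨x', hx', e⟩ := hco d m x hx hc0
      have hex : ∃ i, i ≠ i0 ∧ ¬ Dvz y.q z (x' i) := by
        by_contra hcon
        push Not at hcon
        apply hnd
        rw [e]
        refine Dvz.sum _ fun i _ => ?_
        by_cases hi : i = i0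
        · subst hi
          rw [hui]
          exact Dvz.self (hx' i).1
        · exact (hcon i hi).mul (Rg.iK _)
      obtain ⟨i, hi, hid⟩ := hex
      have hne : χ i ≠ -b := fun h => hi (hinj (h.trans hi0.symm))
      have hpi' : y.Pi (χ i) := (hpi _).2 ⟨i, rfl⟩
      have hpos := hoth (χ i) hpi' hne
      have hval : c (m - (du i • y.ν + χ i)) - (d - du i) * c y.ν = c m - d * c y.ν - c (χ i) := by
        rw [map_sub, map_add, map_nsmul, nsmul_eq_mul]
        ring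
      by_cases hn0 : c m - d * c y.ν - c (χ i) < 0
      · exfalso
        apply hid
        refine lf2 H y c (fun ψ h1 h2 => (hoth ψ h1 h2).le) hz (hx' i).2 (hx' i).1 ?_
        linarith
      · push Not at hn0
        have h1 : 1 ≤ n := by
          have : (0 : ℤ) < n := by linarith
          exact_mod_cast this
        obtain ⟨M, hM, hMs⟩ := ih (n - 1) (by omega) _ _ _ (hx' i).2 (hx' i).1 (by
          rw [hval]
          push_cast [Nat.cast_sub h1]
          linarith) hid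
        refine ⟨χ i :: M, ?_, ?_⟩
        · intro ω hω
          rcases List.mem_cons.1 hω with h2 | h2
          · rw [h2]
            exact ⟨hpi', hne⟩
          · exact hM ω h2
        · rw [List.sum_cons, ← add_sub_cancel_right m (du i • y.ν + χ i), add_sub_assoc,
            add_comm m, add_sub_assoc] at *
          have h3 : m = (du i • y.ν + χ i) + ((d - (du i : ℤ)) • y.ν + M.sum) := by
            rw [← hMs]
            abel
          rw [h3, sub_smul, natCast_zsmul]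
          abel
    · refine ⟨[], by simp, ?_⟩
      by_contra hm
      have h1 : m ≠ d • y.ν := by
        intro h
        apply hm
        rw [h, List.sum_nil, add_zero]
      exact h0 (hc0.unique (val_zero y hx hr h1))

theorem mon (H : Hyp 𝒜) (y : FP 𝒜) (c : (Fin r → ℤ) →+ ℤ) {b : Fin r → ℤ}
    (hoth : ∀ ψ, y.Pi ψ → ψ ≠ -b → 0 < c ψ) {dz : ℕ} {z : R} (hz : Crd y (-b) dz z)
    {d : ℤ} {m : Fin r → ℤ} {x : FractionRing R} (hx : HK 𝒜 d m x) (hr : Rg y.q x)
    (hnd : ¬ Dvz y.q z x) :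
    ∃ M : List (Fin r → ℤ), (∀ ω ∈ M, y.Pi ω ∧ ω ≠ -b) ∧ m = d • y.ν + M.sum :=
  mon_aux H y c hoth hz (c m - d * c y.ν).toNat d m x hx hr (Int.self_le_toNat _) hnd

/-- Two functions whose weight allows at most one monomial modulo `z` are proportional modulo
`z`. -/
theorem prop_mod (H : Hyp 𝒜) (y : FP 𝒜) (c : (Fin r → ℤ) →+ ℤ) {b : Fin r → ℤ}
    (hoth : ∀ ψ, y.Pi ψ → ψ ≠ -b → 0 < c ψ) {dz : ℕ} {z : R} (hz : Crd y (-b) dz z)
    {d : ℤ} {m : Fin r → ℤ} {x x' : FractionRing R} (hx : HK 𝒜 d m x) (hr : Rg y.q x)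
    (hx' : HK 𝒜 d m x') (hr' : Rg y.q x')
    (huniq : ∀ M : List (Fin r → ℤ), (∀ ω ∈ M, y.Pi ω ∧ ω ≠ -b) → m = d • y.ν + M.sum →
      M.length ≤ 1) :
    ∃ α α' : ℂ, (α ≠ 0 ∨ α' ≠ 0) ∧ Dvz y.q z (α • x + α' • x') := by
  by_cases h1 : Dvz y.q z x
  · exact ⟨1, 0, Or.inl one_ne_zero, by rw [one_smul, zero_smul, add_zero]; exact h1⟩
  by_cases h2 : Dvz y.q z x'
  · exact ⟨0, 1, Or.inr one_ne_zero, by rw [one_smul, zero_smul, zero_add]; exact h2⟩
  obtain ⟨M, hM, hMs⟩ := mon H y c hoth hz hx hr h1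
  have hlen := huniq M hM hMs
  match M, hM, hMs, hlen with
  | [], _, hMs, _ =>
    rw [List.sum_nil, add_zero] at hMs
    obtain ⟨v, hv⟩ := hr.val
    obtain ⟨v', hv'⟩ := hr'.val
    have hcm : c m = d * c y.ν := by rw [hMs, map_zsmul, smul_eq_mul]
    have hne : v ≠ 0 := by
      rintro rfl
      exact h1 (lf2' H y c hoth hz hx hr hcm hv)
    refine ⟨v', -v, Or.inr (neg_ne_zero.2 hne), ?_⟩
    refine lf2' H y c hoth hz ((hx.smul v').add (hx'.smul (-v)))
      ((hr.smul v').add (hr'.smul (-v))) hcm ?_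
    have h3 := (hv.smul v').add (hv'.smul (-v))
    have h4 : v' * v + -v * v' = 0 := by ring
    rwa [h4] at h3
  | [ω], hM, hMs, _ =>
    obtain ⟨hω, hωb⟩ := hM ω (by simp)
    rw [List.sum_singleton] at hMs
    have hcω := hoth ω hω hωb
    have hmne : m ≠ d • y.ν := by
      intro h
      rw [hMs] at h
      have h3 := congrArg c h
      rw [map_add] at h3
      linarith
    have hv := val_zero y hx hr hmne
    have hv' := val_zero y hx' hr' hmne
    obtain ⟨k, χ, i0, du, u, hinj, hpi, hi0, hui, hco⟩ := coords_z H y hz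
    obtain ⟨i1, hi1⟩ := (hpi ω).1 hω
    -- the other coefficients are divisible
    have key : ∀ {x : FractionRing R} {x1 : Fin k → FractionRing R},
        (∀ i, Rg y.q (x1 i) ∧ HK 𝒜 (d - du i) (m - (du i • y.ν + χ i)) (x1 i)) →
        ∀ i, i ≠ i0 → i ≠ i1 → Dvz y.q z (x1 i) := by
      intro x x1 hx1 i hi hi'
      by_contra hnd
      obtain ⟨M', hM', hMs'⟩ := mon H y c hoth hz (hx1 i).2 (hx1 i).1 hnd
      have hne : χ i ≠ -b := fun h => hi (hinj (h.trans hi0.symm))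
      have h3 : m = d • y.ν + (χ i :: M').sum := by
        have h4 : m = (du i • y.ν + χ i) + ((d - (du i : ℤ)) • y.ν + M'.sum) := by
          rw [← hMs']
          abel
        rw [List.sum_cons]
        conv_lhs => rw [h4]
        rw [sub_smul, natCast_zsmul]
        abel
      have h4 := huniq (χ i :: M') (by
        intro ω' hω'
        rcases List.mem_cons.1 hω' with h5 | h5
        · rw [h5]
          exact ⟨(hpi _).2 ⟨i, rfl⟩, hne⟩
        · exact hM' ω' h5) h3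
      rw [List.length_cons] at h4
      have h5 : M' = [] := List.length_eq_zero_iff.1 (by omega)
      rw [h5, List.sum_cons, List.sum_nil, add_zero, hMs] at h3
      have h6 : χ i = ω := (add_left_cancel h3).symm
      exact hi' (hinj (h6.trans hi1.symm))
    obtain ⟨x1, hx1, e⟩ := hco d m x hx hv
    obtain ⟨x1', hx1', e'⟩ := hco d m x' hx' hv'
    have hi10 : i1 ≠ i0 := by
      intro h
      apply hωb
      rw [← hi1, h, hi0]
    obtain ⟨v, hv1⟩ := (hx1 i1).1.val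
    obtain ⟨v', hv1'⟩ := (hx1' i1).1.val
    have hcm : c (m - (du i1 • y.ν + χ i1)) = (d - du i1) * c y.ν := by
      rw [hMs, hi1, map_sub, map_add, map_add, map_nsmul, map_zsmul, nsmul_eq_mul, smul_eq_mul]
      ring
    have hne : v ≠ 0 := by
      rintro rfl
      apply h1
      rw [e]
      refine Dvz.sum _ fun i _ => ?_
      by_cases hi : i = i0
      · subst hi
        rw [hui]
        exact Dvz.self (hx1 i).1
      · by_cases hi' : i = i1
        · subst hi'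
          have h3 : Dvz y.q z (x1 i) := lf2' H y c hoth hz (hx1 i).2 (hx1 i).1 hcm hv1
          exact h3.mul (Rg.iK _)
        · exact (key (x := x) hx1 i hi hi').mul (Rg.iK _)
    refine ⟨v', -v, Or.inr (neg_ne_zero.2 hne), ?_⟩
    have hsum : v' • x + -v • x' = ∑ i, iK (u i) * (v' • x1 i + -v • x1' i) := by
      rw [e, e', Finset.smul_sum, Finset.smul_sum, ← Finset.sum_add_distrib]
      refine Finset.sum_congr rfl fun i _ => ?_
      rw [mul_add, mul_smul_comm, mul_smul_comm]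
    rw [hsum]
    refine Dvz.sum _ fun i _ => ?_
    by_cases hi : i = i0
    · subst hi
      rw [hui]
      exact Dvz.self (((hx1 i).1.smul v').add ((hx1' i).1.smul (-v)))
    · by_cases hi' : i = i1
      · subst hi'
        have h3 : Dvz y.q z (v' • x1 i + -v • x1' i) := by
          refine lf2' H y c hoth hz (((hx1 i).2.smul v').add ((hx1' i).2.smul (-v)))
            (((hx1 i).1.smul v').add ((hx1' i).1.smul (-v))) hcm ?_
          have h3 := (hv1.smul v').add (hv1'.smul (-v))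
          have h4 : v' * v + -v * v' = 0 := by ring
          rwa [h4] at h3
        exact h3.mul (Rg.iK _)
      · exact (((key (x := x) hx1 i hi hi').smul v').add
          ((key (x := x') hx1' i hi hi').smul (-v))).mul (Rg.iK _)
  | _ :: _ :: _, _, _, hlen =>
    rw [List.length_cons, List.length_cons] at hlen
    omega

/-- **One-dimensional polar parts.** -/
theorem polar_sym (H : Hyp 𝒜) (y : FP 𝒜) (c : (Fin r → ℤ) →+ ℤ) {b : Fin r → ℤ}
    (hoth : ∀ ψ, y.Pi ψ → ψ ≠ -b → 0 < c ψ) {dz : ℕ} {z : R} (hz : Crd y (-b) dz z)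
    {d : ℤ} {m : Fin r → ℤ} {x x' : FractionRing R} (hx : HK 𝒜 d m x) (hx' : HK 𝒜 d m x')
    (hk : ∃ k : ℕ, Rg y.q ((iK z) ^ k * x)) (hk' : ∃ k : ℕ, Rg y.q ((iK z) ^ k * x'))
    (huniq : ∀ (l : ℕ) (M : List (Fin r → ℤ)), 1 ≤ l → (∀ ω ∈ M, y.Pi ω ∧ ω ≠ -b) →
      m = d • y.ν + l • b + M.sum → l = 1 ∧ M.length ≤ 1) :
    ∃ α α' : ℂ, (α ≠ 0 ∨ α' ≠ 0) ∧ Rg y.q (α • x + α' • x') := by
  have hz0 : z ≠ 0 := by
    rintro rfl
    obtain ⟨-, -, t, -, -, h⟩ := hz
    exact h (map_zero t)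
  have hzK := iK_ne_zero hz0
  have hzh := HK.ofR hz.1
  have step : ∀ {x : FractionRing R}, HK 𝒜 d m x → (∃ k : ℕ, Rg y.q ((iK z) ^ k * x)) →
      Rg y.q (iK z * x) := by
    intro x hx hk
    obtain ⟨k, hk⟩ := hk
    by_contra hn
    obtain ⟨l, M, hl, hM, hMs⟩ := xmon H y hz (hzh.mul hx) (k := k) (by
      have h1 := (Rg.iK (q := y.q) z).mul hk
      have h2 : iK z * ((iK z) ^ k * x) = (iK z) ^ k * (iK z * x) := by ring
      rwa [h2] at h1) hn
    have h1 := huniq (l + 1) M (by omega) hM (by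
      have h2 : m = -(dz • y.ν + -b) + (((dz : ℤ) + d) • y.ν + l • b + M.sum) := by
        rw [← hMs]
        abel
      rw [h2, add_smul, add_smul, natCast_zsmul, one_smul]
      abel)
    omega
  have h1 := step hx hk
  have h1' := step hx' hk'
  obtain ⟨α, α', hne, w, hw, e⟩ := prop_mod H y c hoth hz (hzh.mul hx) h1 (hzh.mul hx') h1' (by
    intro M hM hMs
    refine (huniq 1 M le_rfl hM ?_).2
    have h2 : m = -(dz • y.ν + -b) + (((dz : ℤ) + d) • y.ν + M.sum) := by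
      rw [← hMs]
      abel
    conv_lhs => rw [h2]
    rw [add_smul, natCast_zsmul, one_smul]
    abel)
  refine ⟨α, α', hne, ?_⟩
  have h2 : α • x + α' • x' = w := by
    apply mul_left_cancel₀ hzK
    rw [← e, mul_add, mul_smul_comm, mul_smul_comm]
  rw [h2]
  exact hw

theorem polar_one (H : Hyp 𝒜) (y : FP 𝒜) (c : (Fin r → ℤ) →+ ℤ) {b : Fin r → ℤ}
    (hoth : ∀ ψ, y.Pi ψ → ψ ≠ -b → 0 < c ψ) {dz : ℕ} {z : R} (hz : Crd y (-b) dz z)
    {d : ℤ} {m : Fin r → ℤ} {x x' : FractionRing R} (hx : HK 𝒜 d m x) (hx' : HK 𝒜 d m x')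
    (hk : ∃ k : ℕ, Rg y.q ((iK z) ^ k * x)) (hk' : ∃ k : ℕ, Rg y.q ((iK z) ^ k * x'))
    (huniq : ∀ (l : ℕ) (M : List (Fin r → ℤ)), 1 ≤ l → (∀ ω ∈ M, y.Pi ω ∧ ω ≠ -b) →
      m = d • y.ν + l • b + M.sum → l = 1 ∧ M.length ≤ 1) (hn' : ¬ Rg y.q x') :
    ∃ α : ℂ, Rg y.q (x - α • x') := by
  obtain ⟨α, α', hne, h⟩ := polar_sym H y c hoth hz hx hx' hk hk' huniq
  have hα : α ≠ 0 := by
    rintro rfl
    have hα' : α' ≠ 0 := by
      rcases hne with h1 | h1
      · exact absurd rfl h1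
      · exact h1
    rw [zero_smul, zero_add] at h
    apply hn'
    have h1 := h.smul α'⁻¹
    rwa [smul_smul, inv_mul_cancel₀ hα', one_smul] at h1
  refine ⟨-(α⁻¹ * α'), ?_⟩
  have h1 := h.smul α⁻¹
  rw [smul_add, smul_smul, smul_smul, inv_mul_cancel₀ hα, one_smul] at h1
  rwa [neg_smul, sub_neg_eq_add]

end Vale.Agent.P280.H900
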