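import Vale.Agent.P280.H127.EdgeE
import Vale.Agent.P280.H644.Div

/-!
P280: a rational field of maximal weight which is regular at the fixed points of the torus on the
lowest component is a global field.
-/

open DirectSum Vale.Agent.P280.T Vale.Agent.P280.H127

namespace Vale.Agent.P280.H900

section
variable {M : Type} [AddCommGroup M] [DecidableEq M]
variable {R : Type} [CommRing R] [Algebra ℂ R] {𝒜 : ℕ × M → Submodule ℂ R} [GradedAlgebra 𝒜]

/-- A one-parameter group which is injective on the weights and refines `L`. -/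
theorem exists_refine (hX : IsTorusManifold 𝒜) {g : M →+ ℤ} (hg : Set.InjOn g (H587.wts 𝒜))
    (L : M →+ ℤ) : ∃ L' : M →+ ℤ, Set.InjOn L' (H587.wts 𝒜) ∧
      ∀ a ∈ H587.wts 𝒜, ∀ b ∈ H587.wts 𝒜, L' a ≤ L' b → L a ≤ L b := by
  obtain ⟨K, hK0, hK⟩ := H587.exists_bound (S := H587.wts 𝒜) (finite_weights hX) g
  let l' : M →+ ℤ := (2 * K + 1) • L + g
  have hl' : ∀ m, l' m = (2 * K + 1) * L m + g m := fun m => by
    change (2 * K + 1) • L m + g m = _
    rw [smul_eq_mul]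
  refine ⟨l', ?_, ?_⟩
  · intro a ha b hb hab
    apply hg ha hb
    have h1 : (2 * K + 1) * L (a - b) + g (a - b) = 0 := by
      have : l' (a - b) = 0 := by rw [map_sub, hab, sub_self]
      rwa [hl'] at this
    have h2 := abs_le.1 (hK a ha b hb)
    have h3 : L (a - b) = 0 := by
      by_contra hne
      rcases lt_or_gt_of_ne hne with hlt | hgt
      · nlinarith
      · nlinarith
    rw [h3, mul_zero, zero_add, map_sub] at h1
    exact sub_eq_zero.1 h1
  · intro a ha b hb hab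
    rw [hl', hl'] at hab
    have h2 := abs_le.1 (hK a ha b hb)
    rw [map_sub] at h2
    by_contra hlt
    push Not at hlt
    nlinarith

/-- **The lowest point** : a homogeneous ideal which vanishes at some point where an element of
lowest slope does not vanish, vanishes at a fixed point of the torus on the lowest component. -/
theorem exists_fixed_low (hX : IsTorusManifold 𝒜) {g : M →+ ℤ} (hg : Set.InjOn g (H587.wts 𝒜))
    (L : M →+ ℤ) {I : Ideal R} (hI : ∀ x ∈ I, ∀ i, ((decompose 𝒜 x) i : R) ∈ I)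
    {z : R →ₐ[ℂ] ℂ} (hz : ∀ x ∈ I, z x = 0) {m0 : M} {f : R} (hf : f ∈ 𝒜 (1, m0))
    (hzf : z f ≠ 0) (hm0 : ∀ m ∈ H587.wts 𝒜, L m0 ≤ L m) :
    ∃ (y : R →ₐ[ℂ] ℂ) (ν : M), ¬ IsVertex 𝒜 y ∧ IsFixed 𝒜 y ν ∧
      (∀ m ∈ H587.wts 𝒜, L ν ≤ L m) ∧ ∀ x ∈ I, y x = 0 := by
  obtain ⟨L', hL', hLL⟩ := exists_refine hX hg L
  obtain ⟨γ, y, hy0, hyI, hy1, hy2, ν, hν, h, hh, hyh⟩ := exists_lowest hX L' hI
    ⟨z, hz, (not_isVertex_iff hX.gen z).2 ⟨m0, f, hf, hzf⟩⟩
  have hνw : ν ∈ H587.wts 𝒜 := ⟨h, hh, fun h0 => hyh (by rw [h0, map_zero])⟩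
  have hm0w : m0 ∈ H587.wts 𝒜 := ⟨f, hf, fun h0 => hzf (by rw [h0, map_zero])⟩
  have hy : IsFixed 𝒜 y ν := by
    refine H587.isFixed_of_one hX fun m x hx hne => ?_
    apply hL' ⟨x, hx, fun h0 => hne (by rw [h0, map_zero])⟩ hνw
    have h3 := hy1 1 m x hx hne
    rw [one_smul] at h3
    rw [h3, hν]
  have hfI : f ∉ I.radical := by
    rintro ⟨n, hn⟩
    have h1 := hz _ hn
    rw [map_pow] at h1
    exact hzf (eq_zero_of_pow_eq_zero h1)
  have hle : L ν ≤ L m0 := by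
    apply hLL ν hνw m0 hm0w
    have h1 := hy2 1 m0 f hf hfI
    rw [one_smul] at h1
    rw [hν]
    exact h1
  exact ⟨y, ν, hy0, hy, fun m hm => hle.trans (hm0 m hm), hyI⟩

/-- **A rational field `D / g` whose weight `χ` maximises `L` over the tangent weights, regular at
the fixed points of the torus on the lowest component of `L`, is a global field.** -/
theorem global_of_low (hX : IsTorusManifold 𝒜) {L g0 : M →+ ℤ}
    (hg0 : Set.InjOn g0 (H587.wts 𝒜)) {χ : M} (ha : 0 < L χ)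
    (hmax : ∀ (x : R →ₐ[ℂ] ℂ) (ν ω : M), ¬ IsVertex 𝒜 x → IsFixed 𝒜 x ν →
      TangentWeight 𝒜 x ν ω → L ω ≤ L χ) {g : R} {N : ℕ} {γ : M} (hg : g ∈ 𝒜 (N, γ))
    (hgne : g ≠ 0) (D : Derivation ℂ R R)
    (hD : ∀ (d : ℕ) (m : M), ∀ h ∈ 𝒜 (d, m), D h ∈ 𝒜 (d + N, m + γ - χ))
    (hreg : ∀ (y : R →ₐ[ℂ] ℂ) (ν : M), ¬ IsVertex 𝒜 y → IsFixed 𝒜 y ν →
      (∀ m ∈ H587.wts 𝒜, L ν ≤ L m) → ∃ r, y r ≠ 0 ∧ ∀ h, g ∣ r * D h) :
    ∃ E : Derivation ℂ R R, (∀ (d : ℕ) (m : M), ∀ h ∈ 𝒜 (d, m), E h ∈ 𝒜 (d, m - χ)) ∧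
      ∀ h, D h = g * E h := by
  have hdom := hX.domain
  have hft := hX.finiteType
  have hI : ∀ x ∈ cond g D, ∀ i, ((decompose 𝒜 x) i : R) ∈ cond g D :=
    fun x hx i => cond_homogeneous (𝒜 := 𝒜) hg D.toLinearMap
      (fun i h hh => ⟨_, hD i.1 i.2 h hh⟩) hx i
  -- an element of lowest slope
  obtain ⟨z0, hz0⟩ := hX.nonempty
  obtain ⟨m1, f1, hf1, hzf1⟩ := (not_isVertex_iff hX.gen z0).1 hz0
  obtain ⟨m0, ⟨f0, hf0, hf0ne⟩, hmin⟩ := (finite_weights hX).exists_minimalFor L _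
    ⟨m1, f1, hf1, fun h0 => hzf1 (by rw [h0, map_zero])⟩
  have hm0 : ∀ m ∈ H587.wts 𝒜, L m0 ≤ L m := by
    intro m hm
    rcases le_total (L m0) (L m) with h | h
    · exact h
    · exact hmin hm h
  -- the conductor does not vanish at the points which flow to the lowest component
  have key : ∀ (z : R →ₐ[ℂ] ℂ) (m : M) (f : R), f ∈ 𝒜 (1, m) → L m = L m0 → z f ≠ 0 →
      ∃ r ∈ cond g D, z r ≠ 0 := by
    intro z m f hf hm hzf
    by_contra hcon
    push Not at hcon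
    obtain ⟨y, ν, hy0, hy, hlow, hyI⟩ := exists_fixed_low hX hg0 L hI hcon hf hzf
      (fun m' hm' => by rw [hm]; exact hm0 m' hm')
    obtain ⟨r, hr, hr'⟩ := hreg y ν hy0 hy hlow
    exact hr (hyI r hr')
  obtain ⟨n, hn⟩ : f0 ∈ (cond g D).radical := by
    by_contra hcon
    obtain ⟨z, hz, hzf⟩ := exists_point hcon
    obtain ⟨r, hr, hzr⟩ := key z m0 f0 hf0 rfl hzf
    exact hzr (hz r hr)
  -- the derivation `f0 ^ n D / g`
  let D1 : Derivation ℂ R R := f0 ^ n • D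
  have hD1 : ∀ h, D1 h = f0 ^ n * D h := fun h => rfl
  obtain ⟨E0, hE0⟩ := H644.exists_div_derivation hgne D1 (fun h => by
    rw [hD1]
    exact hn h)
  have hpow : f0 ^ n ∈ 𝒜 (n, n • m0) := by
    have h1 := SetLike.pow_mem_graded n hf0
    have h2 : (n • ((1, m0) : ℕ × M)) = (n, n • m0) := by
      ext
      · simp
      · simp
    rwa [h2] at h1
  have hpne : f0 ^ n ≠ 0 := pow_ne_zero n hf0ne
  have hE0d : ∀ (d : ℕ) (m : M), ∀ h ∈ 𝒜 (d, m), E0 h ∈ 𝒜 (d + n, m + n • m0 - χ) := by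
    intro d m h hh
    apply H644.mem_of_mul_mem_graded hgne hg
    rw [← hE0, hD1]
    have h1 := SetLike.mul_mem_graded hpow (hD d m h hh)
    have h3 : ((n, n • m0) : ℕ × M) + (d + N, m + γ - χ) = (N, γ) + (d + n, m + n • m0 - χ) := by
      rw [Prod.mk_add_mk, Prod.mk_add_mk]
      apply Prod.ext
      · change n + (d + N) = N + (d + n)
        omega
      · change n • m0 + (m + γ - χ) = γ + (m + n • m0 - χ)
        abel
    rwa [h3] at h1
  -- extension
  have hX' : IsTorusManifold (H587.co 𝒜 L) := H587.isTorusManifold_co hX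
  have hdiv := extension_gen (𝒜 := H587.co 𝒜 L) hX' ha
    (fun q ν hq hq' k hk => weight_le_co hX hg0 ha hmax hq hq' hk) (μ := L m0)
    (by
      intro m h hh hne
      obtain ⟨m', hm', x, hx, hx'⟩ := H587.exists_ne_of_co (LinearMap.id : R →ₗ[ℂ] R) hh hne
      rw [← hm']
      exact hm0 m' ⟨x, hx, hx'⟩)
    (f0 := f0) (H587.mem_co hf0) hf0ne n E0
    (by
      intro d m h hh
      refine H587.co_induction (P := fun h => E0 h ∈ H587.co 𝒜 L (d + n, m + n • L m0 - L χ))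
        (by rw [map_zero]; exact Submodule.zero_mem _)
        (fun a b ha hb => by rw [map_add]; exact Submodule.add_mem _ ha hb) ?_ hh
      intro m' hm' x hx
      have h1 := H587.mem_co (l := L) (hE0d d m' x hx)
      have h2 : L (m' + n • m0 - χ) = m + n • L m0 - L χ := by
        rw [map_sub, map_add, map_nsmul, hm']
      rwa [h2] at h1)
    (by
      intro q hq hq'
      obtain ⟨m, f, hf, hqf⟩ := (not_isVertex_iff hX.gen q).1 (fun h => hq (H587.isVertex_co.2 h))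
      have hm : L m = L m0 := by
        have h1 := hq' 1 (L m) f (H587.mem_co hf) hqf
        rwa [one_smul] at h1
      obtain ⟨r, hr, hqr⟩ := key q m f hf hm hqf
      refine ⟨r, hqr, fun h => ?_⟩
      obtain ⟨y, hy⟩ := hr h
      refine ⟨y, ?_⟩
      apply mul_left_cancel₀ hgne
      have h1 : g * (r * E0 h) = r * (g * E0 h) := by ring
      rw [h1, ← hE0, hD1]
      have h2 : r * (f0 ^ n * D h) = f0 ^ n * (r * D h) := by ring
      rw [h2, hy]
      ring)
  obtain ⟨E, hE⟩ := H644.exists_div_derivation hpne E0 hdiv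
  refine ⟨E, ?_, ?_⟩
  · intro d m h hh
    apply H644.mem_of_mul_mem_graded hpne hpow
    rw [← hE]
    have h1 := hE0d d m h hh
    have h3 : ((n, n • m0) : ℕ × M) + (d, m - χ) = (d + n, m + n • m0 - χ) := by
      rw [Prod.mk_add_mk]
      apply Prod.ext
      · change n + d = d + n
        omega
      · change n • m0 + (m - χ) = m + n • m0 - χ
        abel
    rw [h3]
    exact h1
  · intro h
    apply mul_left_cancel₀ hpne
    have h1 := hE0 h
    rw [hD1, hE h] at h1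
    rw [h1]
    ring

end

end Vale.Agent.P280.H900
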