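import Vale.Agent.P280.H900.Rank
import Vale.Agent.P280.H900.Global
import Vale.Agent.P280.H93.Minors
import Vale.Agent.P280.H455.X4Cor

/-!
P280: if the tangent vectors of maximal weight at the fixed points of the torus on the lowest
component are values of fields, so are those at all its points.
-/

open DirectSum Vale.Agent.P280.T Vale.Agent.P280.H93 Vale.Agent.P280.H127

namespace Vale.Agent.P280.H900

section
variable {M : Type} [AddCommGroup M] [DecidableEq M]
variable {R : Type} [CommRing R] [Algebra ℂ R] {𝒜 : ℕ × M → Submodule ℂ R} [GradedAlgebra 𝒜]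

/-- The ideal of the `k × k` minors of the fields whose weights have the `L`-value `a`. -/
def minorsAt (𝒜 : ℕ × M → Submodule ℂ R) (L : M →+ ℤ) (a : ℤ) (k : ℕ) : Ideal R :=
  Ideal.span {r | ∃ (χ : Fin k → M) (D : Fin k → Derivation ℂ R R) (h : Fin k → R),
    (∀ i, L (χ i) = a) ∧ (∀ i, IsHField 𝒜 (χ i) (D i)) ∧
    (∀ j, SetLike.IsHomogeneousElem 𝒜 (h j)) ∧ r = (dmat D h).det}

theorem minorsAt_isHomogeneous (L : M →+ ℤ) (a : ℤ) (k : ℕ) :
    (minorsAt 𝒜 L a k).IsHomogeneous 𝒜 := by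
  refine Ideal.homogeneous_span 𝒜 _ ?_
  rintro r ⟨χ, D, h, -, hD, hh, rfl⟩
  choose i hi using hh
  refine ⟨(∑ j, (i j).1, ∑ j, (i j).2 - ∑ l, χ l), ?_⟩
  rw [Matrix.det_apply]
  refine Submodule.sum_mem _ fun σ _ => ?_
  rw [Units.smul_def]
  refine zsmul_mem ?_ _
  have h1 : ∏ j, dmat D h (σ j) j ∈ 𝒜 (∑ j, ((i j).1, (i j).2 - χ (σ j))) := by
    refine SetLike.prod_mem_graded 𝒜 _ _ fun j _ => ?_
    exact hD (σ j) (i j).1 (i j).2 (h j) (hi j)
  have h2 : ∑ j, ((i j).1, (i j).2 - χ (σ j)) =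
      (∑ j, (i j).1, ∑ j, (i j).2 - ∑ l, χ l) := by
    refine Prod.ext ?_ ?_
    · rw [Prod.fst_sum]
    · rw [Prod.snd_sum]
      simp only
      rw [Finset.sum_sub_distrib, Equiv.sum_comp σ χ]
  rw [h2] at h1
  exact h1

/-- The vectors of `L`-weight `a` at a fixed point of the torus are spanned by the weight
vectors. -/
theorem tws_le_span (hX : IsTorusManifold 𝒜) (L : M →+ ℤ) {q : R →ₐ[ℂ] ℂ} {μ : M}
    (hq : ¬ IsVertex 𝒜 q) (hq1 : IsFixed 𝒜 q μ) {a : ℤ} {v : R →ₗ[ℂ] ℂ}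
    (hv : v ∈ tws (H587.co 𝒜 L) q (L μ) a) :
    v ∈ Submodule.span ℂ {w | IsTangent q w ∧ ∃ χ, L χ = a ∧ HasWeight 𝒜 μ χ w} := by
  have := noeth hX
  obtain ⟨n, u, wt, G, hn⟩ := exists_params_T hX hq (fix_of_isFixed hq1)
  obtain ⟨w, hvT, -, hvw, hsp⟩ := G.exists_dual (fix_of_isFixed hq1) hn.le
  rw [hsp v hv.1]
  refine Submodule.sum_mem _ fun i _ => ?_
  by_cases hi : L (wt i) = a
  · exact Submodule.smul_mem _ _ (Submodule.subset_span
      ⟨hvT i, wt i, hi, weight_iff.mp (hvw i)⟩)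
  · have h0 : v (u i) = 0 := by
      refine coarse_induction (P := fun x => v x = 0) (map_zero v) (fun a b ha hb => by
        rw [map_add, ha, hb, add_zero]) ?_ (G.hom i)
      rintro ⟨d, m⟩ hm h hh
      by_contra hne
      apply hi
      have h2 := hv.2 d (L m) h (H587.mem_co hh) hne
      rw [← hm, rl_apply, map_sub, map_nsmul]
      have h3 : L ((AddMonoidHom.id M) m) = L m := rfl
      rw [h3, h2]
      abel
    rw [h0, zero_smul]
    exact Submodule.zero_mem _

/-- **The seam** : if at the fixed points of the torus on the lowest component of `L` the tangent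
vectors whose weight has `L`-value `a ≠ 0` are values of fields, then so are the tangent vectors of
`L`-weight `a` at all points of the lowest component. -/
theorem baseExt_of_fixed (hX : IsTorusManifold 𝒜) {g0 : M →+ ℤ}
    (hg0 : Set.InjOn g0 (H587.wts 𝒜)) {L : M →+ ℤ} {a : ℤ} (ha : a ≠ 0)
    (H : ∀ (y : R →ₐ[ℂ] ℂ) (ν χ : M), ¬ IsVertex 𝒜 y → IsFixed 𝒜 y ν →
      (∀ m ∈ H587.wts 𝒜, L ν ≤ L m) → TangentWeight 𝒜 y ν χ → L χ = a →
      ∀ v : R →ₗ[ℂ] ℂ, IsTangent y v → HasWeight 𝒜 ν χ v →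
        ∃ D : Derivation ℂ R R, (∀ (d : ℕ) (m : M), ∀ h ∈ 𝒜 (d, m), D h ∈ 𝒜 (d, m - χ)) ∧
          ∀ h, y (D h) = v h) : BaseExt 𝒜 L a := by
  classical
  intro k hk _ q hq hq' v hv hvw
  have hX' : IsTorusManifold (H587.co 𝒜 L) := H587.isTorusManifold_co hX
  -- the dimension
  set N := Module.finrank ℂ (tws (H587.co 𝒜 L) q k a) with hN
  -- some minor does not vanish at `q`
  have hminor : ∃ r ∈ minorsAt 𝒜 L a N, q r ≠ 0 := by
    by_contra hcon
    push Not at hcon
    obtain ⟨m, f, hf, hqf⟩ := (not_isVertex_iff hX.gen q).1 hq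
    have hm : L m = k := by
      have h1 := hq' 1 (L m) f (H587.mem_co hf) hqf
      rwa [one_smul] at h1
    obtain ⟨y, ν, hy0, hy, hlow, hyI⟩ := exists_fixed_low hX hg0 L
      (fun x hx i => minorsAt_isHomogeneous L a N i hx) hcon hf hqf (by
        rintro m' ⟨x, hx, hx'⟩
        have h1 := hk 1 (L m') x (H587.mem_co hx) hx'
        rw [one_smul] at h1
        rw [hm]
        exact h1)
    have hνk : L ν = k := by
      obtain ⟨f', hf', hyf'⟩ := exists_deg_one_ne hX.gen hy0 hy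
      apply le_antisymm
      · rw [← hm]
        exact hlow m ⟨f, hf, fun h0 => hqf (by rw [h0, map_zero])⟩
      · have h1 := hk 1 (L ν) f' (H587.mem_co hf') (fun h0 => hyf' (by rw [h0, map_zero]))
        rwa [one_smul] at h1
    -- a basis at `y`
    have hy' : ¬ IsVertex (H587.co 𝒜 L) y := fun h => hy0 (H587.isVertex_co.1 h)
    have hyk : IsFixed (H587.co 𝒜 L) y k := by
      have h1 := H587.isFixed_co (l := L) hy
      rwa [hνk] at h1
    have hNy : Module.finrank ℂ (tws (H587.co 𝒜 L) y k a) = N :=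
      finrank_const hX' hk hy' hyk (fun h => hq (H587.isVertex_co.1 h)) hq' a
    have hfin := finite_tws hX' hy' k a
    obtain ⟨b, hb, hli⟩ := exists_fin_family (tws (H587.co 𝒜 L) y k a)
      {w | IsTangent y w ∧ ∃ χ, L χ = a ∧ HasWeight 𝒜 ν χ w} (by
        apply le_antisymm
        · refine Submodule.span_le.2 ?_
          rintro w ⟨h1, χ, h2, h3⟩
          refine ⟨h1, ?_⟩
          have h4 := H587.hasWeight_co (l := L) h3
          rwa [hνk, h2] at h4
        · intro w hw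
          rw [← hνk] at hw
          exact tws_le_span hX L hy0 hy hw) hNy
    have hfield : ∀ i, ∃ (χ : M) (D : Derivation ℂ R R), L χ = a ∧ IsHField 𝒜 χ D ∧
        ∀ h, y (D h) = b i h := by
      intro i
      obtain ⟨h1, χ, h2, h3⟩ := hb i
      have hχ0 : χ ≠ 0 := by
        rintro rfl
        rw [map_zero] at h2
        exact ha h2.symm
      have hne : b i ≠ 0 := hli.ne_zero i
      have hχ := H455.weight_of_ne hy hχ0 h1 h3 hne
      obtain ⟨D, h4, h5⟩ := H y ν χ hy0 hy hlow hχ h2 (b i) h1 h3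
      exact ⟨χ, D, h2, h4, h5⟩
    choose χ D h1 h2 h3 using hfield
    obtain ⟨x, hx, hdet⟩ := exists_det_ne b hli _ (span_homogeneous 𝒜)
    have h4 : (dmat D x).det ∈ minorsAt 𝒜 L a N :=
      Ideal.subset_span ⟨χ, D, x, h1, h2, hx, rfl⟩
    have h5 := hyI _ h4
    apply hdet
    rw [AlgHom.map_det] at h5
    rw [← h5]
    congr 1
    ext i j
    exact (h3 i (x j)).symm
  -- so the values of the fields span
  obtain ⟨r, hr, hqr⟩ := hminor
  obtain ⟨χ, D, x, h1, h2, h3, h4⟩ : ∃ (χ : Fin N → M) (D : Fin N → Derivation ℂ R R)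
      (x : Fin N → R), (∀ i, L (χ i) = a) ∧ (∀ i, IsHField 𝒜 (χ i) (D i)) ∧
      (∀ j, SetLike.IsHomogeneousElem 𝒜 (x j)) ∧ q (dmat D x).det ≠ 0 := by
    by_contra hcon
    push Not at hcon
    apply hqr
    have h5 : minorsAt 𝒜 L a N ≤ RingHom.ker q := by
      refine Ideal.span_le.2 ?_
      rintro r ⟨χ, D, h, h1, h2, h3, rfl⟩
      exact hcon χ D h h1 h2 h3
    exact h5 hr
  have hco : ∀ i (d : ℕ) (m : ℤ), ∀ h ∈ H587.co 𝒜 L (d, m), D i h ∈ H587.co 𝒜 L (d, m - a) := by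
    intro i d m h hh
    refine H587.co_induction (P := fun h => D i h ∈ H587.co 𝒜 L (d, m - a))
      (by rw [map_zero]; exact Submodule.zero_mem _)
      (fun a b ha hb => by rw [map_add]; exact Submodule.add_mem _ ha hb) ?_ hh
    intro m' hm' x hx
    have h5 := H587.mem_co (l := L) (h2 i d m' x hx)
    rwa [map_sub, hm', h1 i] at h5
  have hq0 : ¬ IsVertex (H587.co 𝒜 L) q := fun h => hq (H587.isVertex_co.1 h)
  have hfinq := finite_tws hX' hq0 k a
  let b : Fin N → tws (H587.co 𝒜 L) q k a := fun i => ⟨valAt q (D i), isTangent_valAt q (D i),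
    fun d m h hh h0 => by
      have h5 := hq' _ _ _ (hco i d m h hh) h0
      rw [← h5]
      abel⟩
  have hli : LinearIndependent ℂ b := by
    rw [Fintype.linearIndependent_iff]
    intro c hc
    have h5 : Matrix.vecMul c (Matrix.of fun i j => q (D i (x j))) = 0 := by
      funext j
      have h6 := congrArg Subtype.val hc
      rw [Submodule.coe_sum] at h6
      have h7 := LinearMap.congr_fun h6 (x j)
      rw [LinearMap.sum_apply] at h7
      exact h7
    have h6 : (Matrix.of fun i j => q (D i (x j))).det ≠ 0 := by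
      rw [AlgHom.map_det] at h4
      exact h4
    have h7 := Matrix.eq_zero_of_vecMul_eq_zero h6 h5
    exact fun i => congrFun h7 i
  have htop := hli.span_eq_top_of_card_eq_finrank' (by rw [Fintype.card_fin])
  have hmem : (⟨v, hv, hvw⟩ : tws (H587.co 𝒜 L) q k a) ∈ Submodule.span ℂ (Set.range b) := by
    rw [htop]
    trivial
  obtain ⟨c, hc⟩ := (Submodule.mem_span_range_iff_exists_fun ℂ).1 hmem
  have hsum : ∀ y, (∑ i, c i • D i) y = ∑ i, c i • D i y := by
    intro y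
    have h8 := congrFun (map_sum (Derivation.coeFnAddMonoidHom (R := ℂ) (A := R) (M := R))
      (fun i => c i • D i) Finset.univ) y
    rw [Finset.sum_apply] at h8
    exact h8
  refine ⟨∑ i, c i • D i, fun d m h hh => ?_, fun h => ?_⟩
  · rw [hsum]
    exact Submodule.sum_mem _ fun i _ => Submodule.smul_mem _ _ (hco i d m h hh)
  · have h5 := congrArg (fun w : tws (H587.co 𝒜 L) q k a => (w : R →ₗ[ℂ] ℂ) h) hc
    simp only [Submodule.coe_sum, LinearMap.sum_apply] at h5
    rw [hsum, map_sum, ← h5]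
    exact Finset.sum_congr rfl fun i _ => map_smul q _ _

/-- **Liftable from the fixed points of the torus on the lowest component.** -/
theorem liftable_of_fixed (hX : IsTorusManifold 𝒜) (hN : NefOnRationalCurves 𝒜) {g0 : M →+ ℤ}
    (hg0 : Set.InjOn g0 (H587.wts 𝒜)) {L : M →+ ℤ} {χ : M} (ha : 0 < L χ)
    (hmax : ∀ (x : R →ₐ[ℂ] ℂ) (ν ω : M), ¬ IsVertex 𝒜 x → IsFixed 𝒜 x ν →
      TangentWeight 𝒜 x ν ω → L ω ≤ L χ)
    (H : ∀ (y : R →ₐ[ℂ] ℂ) (ν ω : M), ¬ IsVertex 𝒜 y → IsFixed 𝒜 y ν →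
      (∀ m ∈ H587.wts 𝒜, L ν ≤ L m) → TangentWeight 𝒜 y ν ω → L ω = L χ →
      ∀ v : R →ₗ[ℂ] ℂ, IsTangent y v → HasWeight 𝒜 ν ω v →
        ∃ D : Derivation ℂ R R, (∀ (d : ℕ) (m : M), ∀ h ∈ 𝒜 (d, m), D h ∈ 𝒜 (d, m - ω)) ∧
          ∀ h, y (D h) = v h) : Liftable 𝒜 χ :=
  liftable_of_base hX hN hg0 ha hmax (baseExt_of_fixed hX hg0 ha.ne' H)

end

end Vale.Agent.P280.H900
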