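import Vale.Agent.P280.N.Defs
import Vale.Agent.P280.H900.Seam

/-!
P280, plan N: common denominators of rational fields; the bridge from `VF R` to `D / g`.
-/

open DirectSum Vale.Agent.P280.T Vale.Agent.P280.H127 Vale.Agent.P280.N

namespace Vale.Agent.P280.H900

variable {r : ℕ} {R : Type} [CommRing R] [IsDomain R] [Algebra ℂ R]
variable {𝒜 : ℕ × (Fin r → ℤ) → Submodule ℂ R} [GradedAlgebra 𝒜]

omit [IsDomain R] [Algebra ℂ R] in
theorem iK_inj : Function.Injective (iK : R → FractionRing R) :=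
  IsFractionRing.injective R (FractionRing R)

/-- The scalars of `ℂ` are killed by a field. -/
theorem vf_algebraMap (v : VF R) (c : ℂ) : v (iK (algebraMap ℂ R c)) = 0 := by
  have h1 : iK (algebraMap ℂ R c) = algebraMap ℂ (FractionRing R) c :=
    (IsScalarTower.algebraMap_apply ℂ R (FractionRing R) c).symm
  rw [h1]
  exact v.map_algebraMap c

/-- **Common denominators** : a homogeneous rational field is `D / g`. -/
theorem exists_den (hX : IsTorusManifold 𝒜) {χ : Fin r → ℤ} {v : VF R} (hv : HV 𝒜 χ v) :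
    ∃ (N : ℕ) (γ : Fin r → ℤ) (g : R) (D : Derivation ℂ R R), g ∈ 𝒜 (N, γ) ∧ g ≠ 0 ∧
      (∀ h, iK (D h) = iK g * v (iK h)) ∧
      ∀ (d : ℕ) (m : Fin r → ℤ), ∀ h ∈ 𝒜 (d, m), D h ∈ 𝒜 (d + N, m + γ - χ) := by
  classical
  have hft := hX.finiteType
  -- finitely many homogeneous generators
  obtain ⟨s, hs⟩ := hft.out
  have hdec : ∀ x : R, ∃ t : Finset R, (∀ y ∈ t, ∃ d m, y ∈ 𝒜 (d, m)) ∧
      x ∈ Algebra.adjoin ℂ (t : Set R) := by
    intro x
    refine ⟨(decompose 𝒜 x).support.image fun i => (decompose 𝒜 x i : R), ?_, ?_⟩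
    · intro y hy
      obtain ⟨i, -, rfl⟩ := Finset.mem_image.1 hy
      exact ⟨i.1, i.2, (decompose 𝒜 x i).2⟩
    · have hx : ∑ i ∈ (decompose 𝒜 x).support, (decompose 𝒜 x i : R) = x :=
        sum_support_decompose 𝒜 x
      have h1 : ∑ i ∈ (decompose 𝒜 x).support, (decompose 𝒜 x i : R) ∈
          Algebra.adjoin ℂ (((decompose 𝒜 x).support.image fun i => (decompose 𝒜 x i : R) :
            Finset R) : Set R) := by
        refine Subalgebra.sum_mem (Algebra.adjoin ℂ _) fun i hi => Algebra.subset_adjoin ?_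
        exact Finset.mem_coe.2 (Finset.mem_image_of_mem _ hi)
      rwa [hx] at h1
  choose t ht1 ht2 using hdec
  set S : Finset R := s.biUnion t with hS
  have hSgen : Algebra.adjoin ℂ (S : Set R) = ⊤ := by
    rw [eq_top_iff, ← hs]
    refine Algebra.adjoin_le fun x hx => ?_
    refine Algebra.adjoin_mono ?_ (ht2 x)
    intro y hy
    exact Finset.mem_coe.2 (Finset.mem_biUnion.2 ⟨x, hx, hy⟩)
  have hShom : ∀ y ∈ S, ∃ d m, y ∈ 𝒜 (d, m) := by
    intro y hy
    obtain ⟨x, -, hxy⟩ := Finset.mem_biUnion.1 hy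
    exact ht1 x y hxy
  -- the denominators
  have hden : ∀ y : R, ∃ (b : ℕ) (n : Fin r → ℤ) (g : R), g ∈ 𝒜 (b, n) ∧ g ≠ 0 ∧
      (y ∈ S → ∃ a : R, iK g * v (iK y) = iK a) := by
    intro y
    by_cases hy : y ∈ S
    · obtain ⟨d, m, hm⟩ := hShom y hy
      obtain ⟨a, b, n, n', f, -, g, hg, hg0, hfg, -, -⟩ := hv d m y hm
      exact ⟨b, n', g, hg, hg0, fun _ => ⟨f, hfg⟩⟩
    · exact ⟨0, 0, 1, SetLike.GradedOne.one_mem, one_ne_zero, fun h => absurd h hy⟩
  choose b n g hg hg0 hgv using hden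
  set G : R := ∏ y ∈ S, g y with hG
  have hGm : G ∈ 𝒜 (∑ y ∈ S, b y, ∑ y ∈ S, n y) := by
    have h1 : G ∈ 𝒜 (∑ y ∈ S, (b y, n y)) :=
      SetLike.prod_mem_graded 𝒜 _ _ fun y _ => hg y
    have h2 : ∑ y ∈ S, (b y, n y) = (∑ y ∈ S, b y, ∑ y ∈ S, n y) := by
      refine Prod.ext ?_ ?_
      · rw [Prod.fst_sum]
      · rw [Prod.snd_sum]
    rwa [h2] at h1
  have hG0 : G ≠ 0 := Finset.prod_ne_zero_iff.2 fun y _ => hg0 y
  have hGv : ∀ h : R, ∃ a : R, iK G * v (iK h) = iK a := by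
    intro h
    have hh : h ∈ Algebra.adjoin ℂ (S : Set R) := by rw [hSgen]; trivial
    induction hh using Algebra.adjoin_induction with
    | mem y hy =>
      have hy' : y ∈ S := hy
      obtain ⟨a, ha⟩ := hgv y hy'
      refine ⟨(∏ z ∈ S.erase y, g z) * a, ?_⟩
      have h1 : G = (∏ z ∈ S.erase y, g z) * g y := (Finset.prod_erase_mul _ _ hy').symm
      have h2 : iK ((∏ z ∈ S.erase y, g z) * g y) = iK (∏ z ∈ S.erase y, g z) * iK (g y) :=
        map_mul _ _ _
      have h3 : iK ((∏ z ∈ S.erase y, g z) * a) = iK (∏ z ∈ S.erase y, g z) * iK a :=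
        map_mul _ _ _
      rw [h1, h2, h3, mul_assoc, ha]
    | algebraMap c => exact ⟨0, by rw [vf_algebraMap, mul_zero, iK, map_zero]⟩
    | add x y _ _ hx hy =>
      obtain ⟨a, ha⟩ := hx
      obtain ⟨a', ha'⟩ := hy
      refine ⟨a + a', ?_⟩
      have h1 : iK (x + y) = iK x + iK y := map_add _ _ _
      rw [h1, map_add, mul_add, ha, ha']
      exact (map_add _ _ _).symm
    | mul x y _ _ hx hy =>
      obtain ⟨a, ha⟩ := hx
      obtain ⟨a', ha'⟩ := hy
      refine ⟨x * a' + y * a, ?_⟩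
      have h1 : iK (x * y) = iK x * iK y := map_mul _ _ _
      have h2 : iK (x * a' + y * a) = iK x * iK a' + iK y * iK a := by
        rw [iK, map_add, map_mul, map_mul]
      rw [h1, Derivation.leibniz, h2, ← ha, ← ha', smul_eq_mul, smul_eq_mul]
      ring
  choose D0 hD0 using hGv
  have hKG : iK G ≠ 0 := fun h => hG0 (iK_inj (by rw [h]; exact (map_zero _).symm))
  let D : Derivation ℂ R R := Derivation.mk'
    { toFun := D0
      map_add' := by
        intro x y
        apply iK_inj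
        have h1 : iK (x + y) = iK x + iK y := map_add _ _ _
        have h2 : iK (D0 x + D0 y) = iK (D0 x) + iK (D0 y) := map_add _ _ _
        rw [h2, ← hD0, ← hD0, ← hD0, h1, map_add, mul_add]
      map_smul' := by
        intro c x
        apply iK_inj
        have h1 : ∀ z : R, iK (c • z) = c • iK z := fun z =>
          map_smul (IsScalarTower.toAlgHom ℂ R (FractionRing R)) c z
        rw [RingHom.id_apply, h1, ← hD0, ← hD0, h1, v.map_smul, mul_smul_comm] }
    (by
      intro x y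
      apply iK_inj
      have h1 : iK (x * y) = iK x * iK y := map_mul _ _ _
      have h2 : iK (x • D0 y + y • D0 x) = iK x * iK (D0 y) + iK y * iK (D0 x) := by
        rw [iK, smul_eq_mul, smul_eq_mul, map_add, map_mul, map_mul]
      change iK (D0 (x * y)) = iK (x • D0 y + y • D0 x)
      rw [h2, ← hD0, ← hD0, ← hD0, h1, Derivation.leibniz, smul_eq_mul, smul_eq_mul]
      ring)
  have hD : ∀ h, iK (D h) = iK G * v (iK h) := fun h => (hD0 h).symm
  refine ⟨∑ y ∈ S, b y, ∑ y ∈ S, n y, G, D, hGm, hG0, hD, ?_⟩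
  intro d m h hh
  obtain ⟨a, b', n1, n', f, hf, g', hg', hg'0, hfg, hd, hm⟩ := hv d m h hh
  apply H644.mem_of_mul_mem_graded hg'0 hg'
  have h1 : g' * D h = G * f := by
    apply iK_inj
    have h2 : iK (g' * D h) = iK g' * iK (D h) := map_mul _ _ _
    have h3 : iK (G * f) = iK G * iK f := map_mul _ _ _
    rw [h2, h3, hD, ← hfg]
    ring
  rw [h1]
  have h2 := SetLike.mul_mem_graded hGm hf
  have h3 : ((∑ y ∈ S, b y, ∑ y ∈ S, n y) : ℕ × (Fin r → ℤ)) + (a, n1) =
      (b', n') + (d + ∑ y ∈ S, b y, m + ∑ y ∈ S, n y - χ) := by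
    refine Prod.ext ?_ ?_
    · change ∑ y ∈ S, b y + a = b' + (d + ∑ y ∈ S, b y)
      omega
    · change ∑ y ∈ S, n y + n1 = n' + (m + ∑ y ∈ S, n y - χ)
      have h4 : n1 = n' + (m - χ) := by
        rw [hm]
        abel
      rw [h4]
      abel
  rwa [h3] at h2

omit [IsDomain R] in
/-- The lowest component, in terms of the weights of the elements of degree one. -/
theorem low_iff (hX : IsTorusManifold 𝒜) {L : (Fin r → ℤ) →+ ℤ} {y : FP 𝒜} :
    Low L y ↔ ∀ m ∈ H587.wts 𝒜, L y.ν ≤ L m := by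
  constructor
  · rintro h m ⟨x, hx, hx0⟩
    have h1 := h 1 m x hx hx0
    rwa [one_smul] at h1
  · intro h d m x hx hx0
    refine slope_le hX.gen L (L y.ν) ⊥ (fun m' h' hh' hne => h m' ⟨h', hh', ?_⟩) d m x hx ?_
    · rintro rfl
      exact hne (Submodule.zero_mem _)
    · rwa [Submodule.mem_bot]

omit [GradedAlgebra 𝒜] in
/-- A regular field has a denominator which does not vanish at the point: `r D ∈ g Der R`. -/
theorem exists_cond (hX : IsTorusManifold 𝒜) {v : VF R} {q : R →ₐ[ℂ] ℂ} (hv : RgV q v) {g : R}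
    {D : Derivation ℂ R R} (hD : ∀ h, iK (D h) = iK g * v (iK h)) :
    ∃ r, q r ≠ 0 ∧ ∀ h, g ∣ r * D h := by
  classical
  obtain ⟨s, hs⟩ := hX.finiteType.out
  choose a b hb hab using fun h => hv h
  have hqr : q (∏ y ∈ s, b y) ≠ 0 := by
    rw [map_prod]
    exact Finset.prod_ne_zero_iff.2 fun y _ => hb y
  refine ⟨∏ y ∈ s, b y, hqr, ?_⟩
  intro h
  have hh : h ∈ Algebra.adjoin ℂ (s : Set R) := by rw [hs]; trivial
  induction hh using Algebra.adjoin_induction with
  | mem y hy =>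
    have hy' : y ∈ s := hy
    refine ⟨(∏ z ∈ s.erase y, b z) * a y, ?_⟩
    apply iK_inj
    have h1 : ∏ z ∈ s, b z = (∏ z ∈ s.erase y, b z) * b y := (Finset.prod_erase_mul _ _ hy').symm
    have h2 : iK ((∏ z ∈ s, b z) * D y) = iK (∏ z ∈ s.erase y, b z) * iK (b y) * iK (D y) := by
      rw [h1, ← map_mul, ← map_mul]
    have h3 : iK (g * ((∏ z ∈ s.erase y, b z) * a y)) =
        iK g * (iK (∏ z ∈ s.erase y, b z) * iK (a y)) := by
      rw [← map_mul, ← map_mul]
    rw [h2, h3, hD, ← hab]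
    ring
  | algebraMap c =>
    rw [D.map_algebraMap, mul_zero]
    exact dvd_zero _
  | add x y _ _ hx hy =>
    rw [map_add, mul_add]
    exact dvd_add hx hy
  | mul x y _ _ hx hy =>
    rw [Derivation.leibniz, smul_eq_mul, smul_eq_mul]
    have h1 : (∏ z ∈ s, b z) * (x * D y + y * D x) =
        x * ((∏ z ∈ s, b z) * D y) + y * ((∏ z ∈ s, b z) * D x) := by ring
    rw [h1]
    exact dvd_add (hy.mul_left x) (hx.mul_left y)

/-- **A homogeneous rational field whose weight `χ` maximises `L` over the tangent weights, regular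
at the fixed points of the torus on the lowest component of `L`, is global.** -/
theorem glob_of_low (hX : IsTorusManifold 𝒜) {L : (Fin r → ℤ) →+ ℤ} {χ : Fin r → ℤ}
    (ha : 0 < L χ) (hmax : ∀ ω, Wt 𝒜 ω → L ω ≤ L χ) {v : VF R} (hv : HV 𝒜 χ v)
    (H : ∀ y : FP 𝒜, Low L y → RgV y.q v) : Glob v := by
  obtain ⟨g0, hg0⟩ := H587.exists_generic (finite_weights hX)
  obtain ⟨N, γ, g, D, hg, hg1, hD, hD1⟩ := exists_den hX hv
  obtain ⟨E, -, hE⟩ := global_of_low hX hg0 ha
    (fun x ν ω hx hx' hω => hmax ω ⟨⟨x, ν, hx, hx'⟩, hω⟩) hg hg1 D hD1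
    (fun y ν hy hy' hlow => exists_cond hX
      (H ⟨y, ν, hy, hy'⟩ ((low_iff hX (y := ⟨y, ν, hy, hy'⟩)).2 hlow)) hD)
  intro h
  refine ⟨E h, ?_⟩
  have hKg : iK g ≠ 0 := fun h => hg1 (iK_inj (by rw [h]; exact (map_zero _).symm))
  apply mul_left_cancel₀ hKg
  rw [← hD, hE]
  exact map_mul _ _ _

end Vale.Agent.P280.H900
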