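import Vale.Agent.P280.H900.Den

/-!
P280: constancy of the ranks of the weight spaces of the tangent spaces along `V(P)`, `P` a
homogeneous prime ideal whose variety is fixed pointwise by `l`.
-/

open DirectSum Vale.Agent.P280.T Vale.Agent.P280.H93 Vale.Agent.P280.H127

namespace Vale.Agent.P280.H900

section
variable {M : Type} [AddCommGroup M] [DecidableEq M]
variable {R : Type} [CommRing R] [Algebra ℂ R] {𝒜 : ℕ × M → Submodule ℂ R} [GradedAlgebra 𝒜]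

/-- The dimensions of the weight spaces at two points which specialise a common point. -/
theorem finrank_le_of_common (hX : IsTorusManifold 𝒜) {μ : M} {q q' : R →ₐ[ℂ] ℂ}
    (hq : ¬ IsVertex 𝒜 q) (hq1 : IsFixed 𝒜 q μ) (hq' : ¬ IsVertex 𝒜 q') (hq1' : IsFixed 𝒜 q' μ)
    (hc : ∀ S : Finset R, (∀ h ∈ S, q h ≠ 0 ∨ q' h ≠ 0) →
      ∃ z : R →ₐ[ℂ] ℂ, ¬ IsVertex 𝒜 z ∧ IsFixed 𝒜 z μ ∧ ∀ h ∈ S, z h ≠ 0)
    (k : M) : Module.finrank ℂ (tws 𝒜 q' μ k) ≤ Module.finrank ℂ (tws 𝒜 q μ k) := by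
  classical
  by_contra hlt
  push Not at hlt
  obtain ⟨n, u, wt, G, hn⟩ := exists_params_T hX hq (fix_of_isFixed hq1)
  choose h1 h2 h3 using fun w : M => exists_open hX hq hq1 w
  obtain ⟨g1, g2, g3⟩ := exists_open hX hq' hq1' k
  -- the common point
  let W : Finset M := insert k (Finset.univ.image wt)
  obtain ⟨y, hy, hy1, hy2⟩ := hc (insert g1 (W.image h1)) (by
      intro x hx
      rcases Finset.mem_insert.1 hx with rfl | hx
      · exact Or.inr g2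
      · obtain ⟨w, -, rfl⟩ := Finset.mem_image.1 hx
        exact Or.inl (h2 w))
  obtain ⟨n', u', wt', G', hn'⟩ := exists_params_T hX hy (fix_of_isFixed hy1)
  have hnn : n' = n := by
    obtain ⟨N, hN⟩ := exists_dim hX
    have e1 := (finrank_tangent hX hq (S := tangentSpace q) (fun v => mem_tangentSpace)).2
    have e2 := (finrank_tangent hX hy (S := tangentSpace y) (fun v => mem_tangentSpace)).2
    rw [(hN q hq).2] at e1
    rw [(hN y hy).2] at e2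
    have e3 : ((n' : ℕ) : ℕ∞) = (n : ℕ) := by
      rw [hn, hn']
      exact e2.symm.trans e1
    exact_mod_cast e3
  have hw : ∀ w ∈ W, Module.finrank ℂ (tws 𝒜 q μ w) ≤ Module.finrank ℂ (tws 𝒜 y μ w) := by
    intro w hw
    exact h3 w y hy hy1 (hy2 _ (Finset.mem_insert_of_mem (Finset.mem_image_of_mem _ hw)))
  have hk : Module.finrank ℂ (tws 𝒜 q' μ k) ≤ Module.finrank ℂ (tws 𝒜 y μ k) :=
    g3 y hy hy1 (hy2 _ (Finset.mem_insert_self _ _))
  have hsum1 : ∑ w ∈ W, Module.finrank ℂ (tws 𝒜 q μ w) = n := by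
    have e : ∀ w ∈ W, Module.finrank ℂ (tws 𝒜 q μ w) =
        (Finset.univ.filter fun i => wt i = w).card := fun w _ => finrank_tws hX hq1 G hn w
    rw [Finset.sum_congr rfl e, ← Finset.card_eq_sum_card_fiberwise
      (f := wt) (s := Finset.univ) (t := W), Finset.card_univ, Fintype.card_fin]
    intro i _
    exact Finset.mem_insert_of_mem (Finset.mem_image_of_mem _ (Finset.mem_univ i))
  have hsum2 : ∑ w ∈ W, Module.finrank ℂ (tws 𝒜 y μ w) ≤ n' := by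
    have e : ∀ w ∈ W, Module.finrank ℂ (tws 𝒜 y μ w) =
        (Finset.univ.filter fun i => wt' i = w).card := fun w _ => finrank_tws hX hy1 G' hn' w
    rw [Finset.sum_congr rfl e]
    have e2 := Finset.card_eq_sum_card_fiberwise (f := wt')
      (s := Finset.univ.filter fun i => wt' i ∈ W) (t := W) (by
        intro i hi
        exact (Finset.mem_filter.1 hi).2)
    have e3 : (Finset.univ.filter fun i => wt' i ∈ W).card ≤ n' := by
      refine (Finset.card_filter_le _ _).trans ?_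
      rw [Finset.card_univ, Fintype.card_fin]
    refine le_trans (le_of_eq ?_) e3
    rw [e2]
    refine Finset.sum_congr rfl fun w hw => ?_
    congr 1
    ext i
    simp only [Finset.mem_filter, Finset.mem_univ, true_and]
    exact ⟨fun h => ⟨h ▸ hw, h⟩, fun h => h.2⟩
  have hkW : k ∈ W := Finset.mem_insert_self _ _
  have hlt' : ∑ w ∈ W, Module.finrank ℂ (tws 𝒜 q μ w) <
      ∑ w ∈ W, Module.finrank ℂ (tws 𝒜 y μ w) :=
    Finset.sum_lt_sum hw ⟨k, hkW, lt_of_lt_of_le hlt hk⟩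
  omega

end

section
variable {M : Type} [AddCommGroup M] [DecidableEq M]
variable {R : Type} [CommRing R] [Algebra ℂ R] {𝒜 : ℕ × M → Submodule ℂ R} [GradedAlgebra 𝒜]

/-- The dimensions of the weight spaces are the same at two points of `V(P)`. -/
theorem finrank_le_prime (hX : IsTorusManifold 𝒜) (l : M →+ ℤ) {P : Ideal R} (hP : P.IsPrime)
    {γ : ℤ} (hγ : ∀ d m, ∀ h ∈ 𝒜 (d, m), h ∉ P → l m = d • γ) {q q' : R →ₐ[ℂ] ℂ}
    (hq : ¬ IsVertex 𝒜 q) (hqP : ∀ h ∈ P, q h = 0) (hq' : ¬ IsVertex 𝒜 q')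
    (hqP' : ∀ h ∈ P, q' h = 0) (k : ℤ) :
    Module.finrank ℂ (tws (H587.co 𝒜 l) q' γ k) ≤
      Module.finrank ℂ (tws (H587.co 𝒜 l) q γ k) := by
  classical
  have hft := hX.finiteType
  have hfix : ∀ z : R →ₐ[ℂ] ℂ, (∀ h ∈ P, z h = 0) → IsFixed (H587.co 𝒜 l) z γ := by
    intro z hz d m h hh hne
    obtain ⟨m', hm', x, hx, hx'⟩ := H587.exists_ne_of_co z.toLinearMap hh hne
    rw [← hm']
    exact hγ d m' x hx (fun h0 => hx' (hz x h0))
  refine finrank_le_of_common (H587.isTorusManifold_co hX) (fun h => hq (H587.isVertex_co.1 h))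
    (hfix q hqP) (fun h => hq' (H587.isVertex_co.1 h)) (hfix q' hqP') ?_ k
  intro S hS
  obtain ⟨m, f, hf, hqf⟩ := (not_isVertex_iff hX.gen q).1 hq
  have hfP : f ∉ P := fun h => hqf (hqP f h)
  have hSP : ∏ h ∈ S, h ∉ P := by
    intro h0
    obtain ⟨h, hh, hhP⟩ := (Ideal.IsPrime.prod_mem_iff (hp := hP)).1 h0
    rcases hS h hh with h1 | h1
    · exact h1 (hqP h hhP)
    · exact h1 (hqP' h hhP)
  have hg : f * ∏ h ∈ S, h ∉ P.radical := by
    rw [hP.radical]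
    intro h0
    rcases hP.mem_or_mem h0 with h1 | h1
    · exact hfP h1
    · exact hSP h1
  obtain ⟨z, hzP, hz⟩ := T.exists_point hg
  rw [map_mul, map_prod] at hz
  refine ⟨z, ?_, hfix z hzP, Finset.prod_ne_zero_iff.1 (right_ne_zero_of_mul hz)⟩
  intro hv
  exact left_ne_zero_of_mul hz (hv 1 (l m) one_pos f (H587.mem_co hf))

/-- **The number of tangent weights of `l`-value `k ≠ 0` is the same at all the fixed points of the
torus on `V(P)`.** -/
theorem ncard_prime (hX : IsTorusManifold 𝒜) (l : M →+ ℤ) {P : Ideal R} (hP : P.IsPrime)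
    {γ : ℤ} (hγ : ∀ d m, ∀ h ∈ 𝒜 (d, m), h ∉ P → l m = d • γ) {y y' : R →ₐ[ℂ] ℂ} {ν ν' : M}
    (hy : ¬ IsVertex 𝒜 y) (hy1 : IsFixed 𝒜 y ν) (hyP : ∀ h ∈ P, y h = 0)
    (hy' : ¬ IsVertex 𝒜 y') (hy1' : IsFixed 𝒜 y' ν') (hyP' : ∀ h ∈ P, y' h = 0)
    (hmult : ∀ ω, TangentWeight 𝒜 y ν ω → ∀ v v' : R →ₗ[ℂ] ℂ, IsTangent y v →
      HasWeight 𝒜 ν ω v → IsTangent y v' → HasWeight 𝒜 ν ω v' →
        ∃ c c' : ℂ, (c ≠ 0 ∨ c' ≠ 0) ∧ ∀ h, c * v h + c' * v' h = 0)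
    (hmult' : ∀ ω, TangentWeight 𝒜 y' ν' ω → ∀ v v' : R →ₗ[ℂ] ℂ, IsTangent y' v →
      HasWeight 𝒜 ν' ω v → IsTangent y' v' → HasWeight 𝒜 ν' ω v' →
        ∃ c c' : ℂ, (c ≠ 0 ∨ c' ≠ 0) ∧ ∀ h, c * v h + c' * v' h = 0)
    {k : ℤ} (hk : k ≠ 0) :
    {ω | TangentWeight 𝒜 y ν ω ∧ l ω = k}.ncard =
      {ω | TangentWeight 𝒜 y' ν' ω ∧ l ω = k}.ncard := by
  have hval : ∀ (z : R →ₐ[ℂ] ℂ) (ξ : M), ¬ IsVertex 𝒜 z → IsFixed 𝒜 z ξ → (∀ h ∈ P, z h = 0) →
      l ξ = γ := by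
    intro z ξ hz hz1 hzP
    obtain ⟨f, hf, hzf⟩ := exists_deg_one_ne hX.gen hz hz1
    have h1 := hγ 1 ξ f hf (fun h0 => hzf (hzP f h0))
    rwa [one_smul] at h1
  rw [ncard_eq hX l hy hy1 hmult hk, ncard_eq hX l hy' hy1' hmult' hk,
    hval y ν hy hy1 hyP, hval y' ν' hy' hy1' hyP']
  exact le_antisymm (finrank_le_prime hX l hP hγ hy' hyP' hy hyP k)
    (finrank_le_prime hX l hP hγ hy hyP hy' hyP' k)

end

end Vale.Agent.P280.H900
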