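import Vale.Agent.P280.H93.E1
import Vale.Agent.P280.H127.EdgeA

/-!
P280: the ranks of the weight spaces of the tangent spaces are constant along the lowest component
of a one-parameter group.
-/

open DirectSum Vale.Agent.P280.T Vale.Agent.P280.H93 Vale.Agent.P280.H127

namespace Vale.Agent.P280.H900

section
variable {M : Type} [AddCommGroup M] [DecidableEq M]
variable {R : Type} [CommRing R] [Algebra ℂ R]

/-- The tangent vectors of weight `k` at a point fixed with character `μ`. -/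
def tws (𝒜 : ℕ × M → Submodule ℂ R) (q : R →ₐ[ℂ] ℂ) (μ k : M) : Submodule ℂ (R →ₗ[ℂ] ℂ) where
  carrier := {v | IsTangent q v ∧ HasWeight 𝒜 μ k v}
  add_mem' := by
    rintro v w ⟨hv, hv'⟩ ⟨hw, hw'⟩
    refine ⟨(tangentSpace q).add_mem hv hw, fun d m h hh hne => ?_⟩
    by_contra hm
    apply hne
    rw [LinearMap.add_apply]
    have h1 : v h = 0 := by
      by_contra h1
      exact hm (hv' d m h hh h1)
    have h2 : w h = 0 := by
      by_contra h2
      exact hm (hw' d m h hh h2)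
    rw [h1, h2, add_zero]
  zero_mem' := ⟨(tangentSpace q).zero_mem, fun d m h _ hne => absurd (LinearMap.zero_apply h) hne⟩
  smul_mem' := by
    rintro c v ⟨hv, hv'⟩
    refine ⟨(tangentSpace q).smul_mem c hv, fun d m h hh hne => ?_⟩
    apply hv' d m h hh
    intro h0
    apply hne
    rw [LinearMap.smul_apply, h0, smul_zero]

theorem mem_tws {𝒜 : ℕ × M → Submodule ℂ R} {q : R →ₐ[ℂ] ℂ} {μ k : M} {v : R →ₗ[ℂ] ℂ} :
    v ∈ tws 𝒜 q μ k ↔ IsTangent q v ∧ HasWeight 𝒜 μ k v := Iff.rfl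

variable {𝒜 : ℕ × M → Submodule ℂ R} [GradedAlgebra 𝒜]

/-- Values of the dual vectors: a basis of the vectors of weight `k`. -/
theorem finrank_tws (hX : IsTorusManifold 𝒜) {q : R →ₐ[ℂ] ℂ} {μ : M} (hq1 : IsFixed 𝒜 q μ)
    {n : ℕ} {u : Fin n → R} {wt : Fin n → M}
    (G : Gens (coarse 𝒜 (rl (AddMonoidHom.id M) μ)) q u wt) (hn : (n : ℕ∞) = (mx q).height)
    (k : M) : Module.finrank ℂ (tws 𝒜 q μ k) = (Finset.univ.filter fun i => wt i = k).card := by
  classical
  have := noeth hX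
  obtain ⟨v, hvT, hvu, hvw, hsp⟩ := G.exists_dual (fix_of_isFixed hq1) hn.le
  have hmem : ∀ i : {i : Fin n // wt i = k}, v i ∈ tws 𝒜 q μ k := by
    rintro ⟨i, hi⟩
    refine ⟨hvT i, ?_⟩
    have := weight_iff.mp (hvw i)
    rw [hi] at this
    exact this
  set b : {i : Fin n // wt i = k} → tws 𝒜 q μ k := fun i => ⟨v i, hmem i⟩ with hb
  have hli : LinearIndependent ℂ b := by
    rw [Fintype.linearIndependent_iff]
    intro c hc i
    have h2 := congrArg Subtype.val hc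
    rw [Submodule.coe_sum] at h2
    have h3 := LinearMap.congr_fun h2 (u i)
    rw [LinearMap.sum_apply] at h3
    have h4 : ∀ j : {i : Fin n // wt i = k}, ((c j • b j : tws 𝒜 q μ k) : R →ₗ[ℂ] ℂ) (u i) =
        if j = i then c j else 0 := by
      intro j
      change c j * v j (u i) = _
      rw [hvu]
      by_cases hji : j = i
      · rw [if_pos hji, if_pos (congrArg Subtype.val hji), mul_one]
      · rw [if_neg hji, if_neg (fun h => hji (Subtype.ext h)), mul_zero]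
    simp only [h4, Finset.sum_ite_eq', Finset.mem_univ, if_true] at h3
    exact h3
  have hspan : ⊤ ≤ Submodule.span ℂ (Set.range b) := by
    rintro ⟨ξ, hξ⟩ -
    have h1 : ∀ i, wt i ≠ k → ξ (u i) = 0 := fun i hi =>
      (weight_iff (w := AddMonoidHom.id M) (γ := μ) (χ := k)).mpr hξ.2 (wt i) hi _ (G.hom i)
    have e : (⟨ξ, hξ⟩ : tws 𝒜 q μ k) = ∑ i : {i : Fin n // wt i = k}, ξ (u i) • b i := by
      refine Subtype.ext ?_
      rw [Submodule.coe_sum]
      change ξ = ∑ i : {i : Fin n // wt i = k}, ξ (u i) • v i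
      have h2 : ∑ i : {i : Fin n // wt i = k}, ξ (u i) • v i =
          ∑ i ∈ Finset.univ.filter (fun i => wt i = k), ξ (u i) • v i := by
        rw [Finset.sum_subtype (p := fun i => wt i = k) (Finset.univ.filter fun i => wt i = k)
          (fun x => by simp) (fun i => ξ (u i) • v i)]
      rw [h2, Finset.sum_filter]
      have h3 := hsp ξ hξ.1
      conv_lhs => rw [h3]
      refine Finset.sum_congr rfl fun i _ => ?_
      by_cases hi : wt i = k
      · rw [if_pos hi]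
      · rw [if_neg hi, h1 i hi, zero_smul]
    rw [e]
    exact Submodule.sum_mem _ fun i _ => Submodule.smul_mem _ _ (Submodule.subset_span ⟨i, rfl⟩)
  have B : Module.Basis {i : Fin n // wt i = k} ℂ (tws 𝒜 q μ k) := Module.Basis.mk hli hspan
  rw [Module.finrank_eq_card_basis B, Fintype.card_subtype]

/-- The tangent vectors of weight `k` form a space of finite dimension. -/
theorem finite_tws (hX : IsTorusManifold 𝒜) {q : R →ₐ[ℂ] ℂ} (hq : ¬ IsVertex 𝒜 q) (μ k : M) :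
    FiniteDimensional ℂ (tws 𝒜 q μ k) := by
  obtain ⟨N, hN⟩ := exists_dim hX
  have := (hN q hq).1
  exact Submodule.finiteDimensional_of_le (S₂ := tangentSpace q) fun v hv => hv.1

/-- The number of weight vectors does not drop nearby. -/
theorem exists_open (hX : IsTorusManifold 𝒜) {q : R →ₐ[ℂ] ℂ} (hq : ¬ IsVertex 𝒜 q) {μ : M}
    (hq1 : IsFixed 𝒜 q μ) (k : M) : ∃ h : R, q h ≠ 0 ∧ ∀ q' : R →ₐ[ℂ] ℂ, ¬ IsVertex 𝒜 q' →
      IsFixed 𝒜 q' μ → q' h ≠ 0 →
        Module.finrank ℂ (tws 𝒜 q μ k) ≤ Module.finrank ℂ (tws 𝒜 q' μ k) := by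
  classical
  have := noeth hX
  obtain ⟨n, u, wt, G, hn⟩ := exists_params_T hX hq (fix_of_isFixed hq1)
  obtain ⟨v, hvT, hvu, hvw, hsp⟩ := G.exists_dual (fix_of_isFixed hq1) hn.le
  have hE : ∀ i : {i : Fin n // wt i = k}, ∃ C0 : ℕ, ∀ C, C0 ≤ C → ∃ E : Derivation ℂ R R,
      (∀ (d : ℕ) (m : M), ∀ h ∈ 𝒜 (d, m), E h ∈ 𝒜 (d + C, m + C • μ - k)) ∧
      ∀ h, q (E h) = v i h := by
    rintro ⟨i, hi⟩
    refine exists_shift_der hX hq hq1 (hvT i) ?_
    have h1 := weight_iff.mp (hvw i)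
    rw [hi] at h1
    exact h1
  choose C0 hC0 using hE
  have hC : ∀ i, C0 i ≤ ∑ i, C0 i := fun i =>
    Finset.single_le_sum (f := C0) (fun _ _ => Nat.zero_le _) (Finset.mem_univ i)
  choose E hE1 hE2 using fun i => hC0 i (∑ i, C0 i) (hC i)
  refine ⟨(Matrix.of fun i j : {i : Fin n // wt i = k} => E i (u j)).det, ?_, ?_⟩
  · rw [AlgHom.map_det]
    have e : (Matrix.of fun i j : {i : Fin n // wt i = k} => E i (u j)).map q = 1 := by
      ext i j
      rw [Matrix.map_apply, Matrix.of_apply, hE2, hvu, Matrix.one_apply]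
      exact if_congr ⟨fun h => Subtype.ext h, fun h => congrArg Subtype.val h⟩ rfl rfl
    have e' : q.mapMatrix (Matrix.of fun i j : {i : Fin n // wt i = k} => E i (u j)) = 1 := e
    rw [e', Matrix.det_one]
    exact one_ne_zero
  · intro q' hq' hq1' hne
    have := finite_tws hX hq' μ k
    rw [finrank_tws hX hq1 G hn, ← Fintype.card_subtype]
    set b : {i : Fin n // wt i = k} → tws 𝒜 q' μ k := fun i => ⟨valAt q' (E i),
      isTangent_valAt q' (E i), fun d m h hh h0 => by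
        have h1 := hq1' _ _ _ (hE1 i d m h hh) h0
        rw [add_smul] at h1
        have h2 : m = m + (∑ i, C0 i) • μ - k - (∑ i, C0 i) • μ + k := by abel
        rw [h2, h1]
        abel⟩ with hb
    have hli : LinearIndependent ℂ b := by
      rw [Fintype.linearIndependent_iff]
      intro c hc
      have h1 : Matrix.vecMul c (Matrix.of fun i j : {i : Fin n // wt i = k} =>
          q' (E i (u j))) = 0 := by
        funext j
        have h2 := congrArg Subtype.val hc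
        rw [Submodule.coe_sum] at h2
        have h3 := LinearMap.congr_fun h2 (u j)
        rw [LinearMap.sum_apply] at h3
        exact h3
      have h4 : (Matrix.of fun i j : {i : Fin n // wt i = k} => q' (E i (u j))).det ≠ 0 := by
        rw [AlgHom.map_det] at hne
        exact hne
      have h5 := Matrix.eq_zero_of_vecMul_eq_zero h4 h1
      exact fun i => congrFun h5 i
    exact hli.fintype_card_le_finrank

end

section
variable {R : Type} [CommRing R] [Algebra ℂ R] {𝒜 : ℕ × ℤ → Submodule ℂ R} [GradedAlgebra 𝒜]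

/-- The lowest component is irreducible. -/
theorem exists_common (hX : IsTorusManifold 𝒜) {μ : ℤ}
    (hlow : ∀ (d : ℕ) (m : ℤ), ∀ h ∈ 𝒜 (d, m), h ≠ 0 → d • μ ≤ m) {ι : Type} (s : Finset ι)
    (hne : s.Nonempty) (h : ι → R)
    (hs : ∀ i ∈ s, ∃ q : R →ₐ[ℂ] ℂ, ¬ IsVertex 𝒜 q ∧ IsFixed 𝒜 q μ ∧ q (h i) ≠ 0) :
    ∃ q : R →ₐ[ℂ] ℂ, ¬ IsVertex 𝒜 q ∧ IsFixed 𝒜 q μ ∧ ∀ i ∈ s, q (h i) ≠ 0 := by
  classical
  have hdom := hX.domain
  have hft := hX.finiteType
  obtain ⟨i0, hi0⟩ := hne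
  obtain ⟨q0, hq0, hq0', -⟩ := hs i0 hi0
  obtain ⟨f, hf, hqf⟩ := exists_deg_one_ne hX.gen hq0 hq0'
  have hf0 : f ≠ 0 := fun h0 => hqf (by rw [h0, map_zero])
  set 𝒞 := coarse 𝒜 (rl (AddMonoidHom.id ℤ) μ) with h𝒞
  have ha0 : ∀ i ∈ s, cp 𝒞 0 (h i) ≠ 0 := by
    intro i hi h0
    obtain ⟨q, -, hq1, hq2⟩ := hs i hi
    apply hq2
    rw [← (fix_of_isFixed hq1).q_cp (h i)]
    change q (cp 𝒞 0 (h i)) = 0
    rw [h0, map_zero]
  have hg : f * ∏ i ∈ s, cp 𝒞 0 (h i) ∉ (⊥ : Ideal R).radical := by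
    rintro ⟨n, hn⟩
    have h1 : (f * ∏ i ∈ s, cp 𝒞 0 (h i)) ^ n = 0 := hn
    exact (pow_ne_zero n (mul_ne_zero hf0 (Finset.prod_ne_zero_iff.2 ha0))) h1
  obtain ⟨z, -, hz⟩ := T.exists_point hg
  rw [map_mul, map_prod] at hz
  have hzf := left_ne_zero_of_mul hz
  have hzi := Finset.prod_ne_zero_iff.1 (right_ne_zero_of_mul hz)
  have hα : H644.Supp 𝒜 z (slopeHom (AddMonoidHom.id ℤ) μ) := by
    rintro ⟨d, m⟩ x hx hne
    have h1 := hlow d m x hx (fun h0 => hne (by rw [h0, map_zero]))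
    rw [slopeHom_apply]
    have h2 : (AddMonoidHom.id ℤ) m = m := rfl
    rw [h2]
    linarith
  have hlim : ∀ (d : ℕ) (m : ℤ), ∀ x ∈ 𝒜 (d, m), H644.lim 𝒜 hα x =
      if m = d • μ then z x else 0 := by
    intro d m x hx
    rw [H644.lim_mem 𝒜 hα hx, slopeHom_apply]
    have h2 : (AddMonoidHom.id ℤ) m = m := rfl
    rw [h2]
    exact if_congr sub_eq_zero rfl rfl
  have hfix : IsFixed 𝒜 (H644.lim 𝒜 hα) μ := by
    intro d m x hx hne
    rw [hlim d m x hx] at hne
    by_contra hm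
    rw [if_neg hm] at hne
    exact hne rfl
  refine ⟨H644.lim 𝒜 hα, ?_, hfix, fun i hi => ?_⟩
  · intro hv
    have h1 := hv 1 μ one_pos f hf
    rw [hlim 1 μ f hf, if_pos (one_smul _ _).symm] at h1
    exact hzf h1
  · rw [← (fix_of_isFixed hfix).q_cp (h i)]
    have key : ∀ a ∈ 𝒞 0, H644.lim 𝒜 hα a = z a := by
      intro a ha
      refine coarse_induction (P := fun a => H644.lim 𝒜 hα a = z a) (by rw [map_zero, map_zero])
        (fun a b ha hb => by rw [map_add, map_add, ha, hb]) ?_ ha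
      rintro ⟨d, m⟩ hi x hx
      rw [rl_apply] at hi
      have hm : m = d • μ := sub_eq_zero.1 hi
      rw [hlim d m x hx, if_pos hm]
    have e1 : H644.lim 𝒜 hα (cp 𝒞 0 (h i)) = z (cp 𝒞 0 (h i)) := key _ (cp_mem 𝒞 0 (h i))
    change H644.lim 𝒜 hα (cp 𝒞 0 (h i)) ≠ 0
    rw [e1]
    exact hzi i hi

/-- The dimensions of the weight spaces of the tangent space do not change along the lowest
component. -/
theorem finrank_le (hX : IsTorusManifold 𝒜) {μ : ℤ}
    (hlow : ∀ (d : ℕ) (m : ℤ), ∀ h ∈ 𝒜 (d, m), h ≠ 0 → d • μ ≤ m) {q q' : R →ₐ[ℂ] ℂ}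
    (hq : ¬ IsVertex 𝒜 q) (hq1 : IsFixed 𝒜 q μ) (hq' : ¬ IsVertex 𝒜 q') (hq1' : IsFixed 𝒜 q' μ)
    (k : ℤ) : Module.finrank ℂ (tws 𝒜 q' μ k) ≤ Module.finrank ℂ (tws 𝒜 q μ k) := by
  classical
  by_contra hlt
  push Not at hlt
  obtain ⟨n, u, wt, G, hn⟩ := exists_params_T hX hq (fix_of_isFixed hq1)
  choose h1 h2 h3 using fun w : ℤ => exists_open hX hq hq1 w
  obtain ⟨g1, g2, g3⟩ := exists_open hX hq' hq1' k
  -- the common point
  let W : Finset ℤ := insert k (Finset.univ.image wt)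
  obtain ⟨y, hy, hy1, hy2⟩ := exists_common hX hlow (insert none (W.image some))
    (Finset.insert_nonempty _ _) (fun o : Option ℤ => o.elim g1 h1) (by
      intro o _
      cases o with
      | none => exact ⟨q', hq', hq1', g2⟩
      | some w => exact ⟨q, hq, hq1, h2 w⟩)
  obtain ⟨n', u', wt', G', hn'⟩ := exists_params_T hX hy (fix_of_isFixed hy1)
  have hnn : n' = n := by
    obtain ⟨N, hN⟩ := exists_dim hX
    have e1 := (finrank_tangent hX hq (S := tangentSpace q) (fun v => mem_tangentSpace)).2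
    have e2 := (finrank_tangent hX hy (S := tangentSpace y) (fun v => mem_tangentSpace)).2
    rw [(hN q hq).2] at e1
    rw [(hN y hy).2] at e2
    have e3 : ((n' : ℕ) : ℕ∞) = (n : ℕ) := by
      rw [hn, hn']
      exact e2.symm.trans e1
    exact_mod_cast e3
  have hw : ∀ w ∈ W, Module.finrank ℂ (tws 𝒜 q μ w) ≤ Module.finrank ℂ (tws 𝒜 y μ w) := by
    intro w hw
    exact h3 w y hy hy1 (hy2 (some w) (Finset.mem_insert_of_mem (Finset.mem_image_of_mem _ hw)))
  have hk : Module.finrank ℂ (tws 𝒜 q' μ k) ≤ Module.finrank ℂ (tws 𝒜 y μ k) :=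
    g3 y hy hy1 (hy2 none (Finset.mem_insert_self _ _))
  have hsum1 : ∑ w ∈ W, Module.finrank ℂ (tws 𝒜 q μ w) = n := by
    have e : ∀ w ∈ W, Module.finrank ℂ (tws 𝒜 q μ w) =
        (Finset.univ.filter fun i => wt i = w).card := fun w _ => finrank_tws hX hq1 G hn w
    rw [Finset.sum_congr rfl e, ← Finset.card_eq_sum_card_fiberwise
      (f := wt) (s := Finset.univ) (t := W), Finset.card_univ, Fintype.card_fin]
    intro i _
    exact Finset.mem_insert_of_mem (Finset.mem_image_of_mem _ (Finset.mem_univ i))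
  have hsum2 : ∑ w ∈ W, Module.finrank ℂ (tws 𝒜 y μ w) ≤ n' := by
    have e : ∀ w ∈ W, Module.finrank ℂ (tws 𝒜 y μ w) =
        (Finset.univ.filter fun i => wt' i = w).card := fun w _ => finrank_tws hX hy1 G' hn' w
    rw [Finset.sum_congr rfl e]
    have e2 := Finset.card_eq_sum_card_fiberwise (f := wt')
      (s := Finset.univ.filter fun i => wt' i ∈ W) (t := W) (by
        intro i hi
        exact (Finset.mem_filter.1 hi).2)
    have e3 : (Finset.univ.filter fun i => wt' i ∈ W).card ≤ n' := by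
      refine (Finset.card_filter_le _ _).trans ?_
      rw [Finset.card_univ, Fintype.card_fin]
    refine le_trans (le_of_eq ?_) e3
    rw [e2]
    refine Finset.sum_congr rfl fun w hw => ?_
    congr 1
    ext i
    simp only [Finset.mem_filter, Finset.mem_univ, true_and]
    exact ⟨fun h => ⟨h ▸ hw, h⟩, fun h => h.2⟩
  have hkW : k ∈ W := Finset.mem_insert_self _ _
  have hlt' : ∑ w ∈ W, Module.finrank ℂ (tws 𝒜 q μ w) <
      ∑ w ∈ W, Module.finrank ℂ (tws 𝒜 y μ w) :=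
    Finset.sum_lt_sum hw ⟨k, hkW, lt_of_lt_of_le hlt hk⟩
  omega

/-- **Rank constancy** : the dimensions of the weight spaces of the tangent spaces are constant
along the lowest component. -/
theorem finrank_const (hX : IsTorusManifold 𝒜) {μ : ℤ}
    (hlow : ∀ (d : ℕ) (m : ℤ), ∀ h ∈ 𝒜 (d, m), h ≠ 0 → d • μ ≤ m) {q q' : R →ₐ[ℂ] ℂ}
    (hq : ¬ IsVertex 𝒜 q) (hq1 : IsFixed 𝒜 q μ) (hq' : ¬ IsVertex 𝒜 q') (hq1' : IsFixed 𝒜 q' μ)
    (k : ℤ) : Module.finrank ℂ (tws 𝒜 q μ k) = Module.finrank ℂ (tws 𝒜 q' μ k) :=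
  le_antisymm (finrank_le hX hlow hq' hq1' hq hq1 k) (finrank_le hX hlow hq hq1 hq' hq1' k)

end

section
variable {M : Type} [AddCommGroup M] [DecidableEq M]
variable {R : Type} [CommRing R] [Algebra ℂ R] {𝒜 : ℕ × M → Submodule ℂ R} [GradedAlgebra 𝒜]

/-- The vectors of `L`-weight `k` at a fixed point of the torus. -/
theorem finrank_co (hX : IsTorusManifold 𝒜) (L : M →+ ℤ) {q : R →ₐ[ℂ] ℂ} {μ : M}
    (hq1 : IsFixed 𝒜 q μ) {n : ℕ} {u : Fin n → R} {wt : Fin n → M}
    (G : Gens (coarse 𝒜 (rl (AddMonoidHom.id M) μ)) q u wt) (hn : (n : ℕ∞) = (mx q).height)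
    (k : ℤ) : Module.finrank ℂ (tws (H587.co 𝒜 L) q (L μ) k) =
      (Finset.univ.filter fun i => L (wt i) = k).card := by
  classical
  have := noeth hX
  obtain ⟨v, hvT, hvu, hvw, hsp⟩ := G.exists_dual (fix_of_isFixed hq1) hn.le
  have hmem : ∀ i : {i : Fin n // L (wt i) = k}, v i ∈ tws (H587.co 𝒜 L) q (L μ) k := by
    rintro ⟨i, hi⟩
    refine ⟨hvT i, ?_⟩
    have h1 : HasWeight 𝒜 μ (wt i) (v i) := weight_iff.mp (hvw i)
    have h2 := H587.hasWeight_co (l := L) h1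
    rw [hi] at h2
    exact h2
  set b : {i : Fin n // L (wt i) = k} → tws (H587.co 𝒜 L) q (L μ) k :=
    fun i => ⟨v i, hmem i⟩ with hb
  have hli : LinearIndependent ℂ b := by
    rw [Fintype.linearIndependent_iff]
    intro c hc i
    have h2 := congrArg Subtype.val hc
    rw [Submodule.coe_sum] at h2
    have h3 := LinearMap.congr_fun h2 (u i)
    rw [LinearMap.sum_apply] at h3
    have h4 : ∀ j : {i : Fin n // L (wt i) = k},
        ((c j • b j : tws (H587.co 𝒜 L) q (L μ) k) : R →ₗ[ℂ] ℂ) (u i) =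
        if j = i then c j else 0 := by
      intro j
      change c j * v j (u i) = _
      rw [hvu]
      by_cases hji : j = i
      · rw [if_pos hji, if_pos (congrArg Subtype.val hji), mul_one]
      · rw [if_neg hji, if_neg (fun h => hji (Subtype.ext h)), mul_zero]
    simp only [h4, Finset.sum_ite_eq', Finset.mem_univ, if_true] at h3
    exact h3
  have hspan : ⊤ ≤ Submodule.span ℂ (Set.range b) := by
    rintro ⟨ξ, hξ⟩ -
    have h1 : ∀ i, L (wt i) ≠ k → ξ (u i) = 0 := by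
      intro i hi
      refine coarse_induction (P := fun x => ξ x = 0) (map_zero ξ) (fun a b ha hb => by
        rw [map_add, ha, hb, add_zero]) ?_ (G.hom i)
      rintro ⟨d, m⟩ hm h hh
      by_contra hne
      apply hi
      have h2 := hξ.2 d (L m) h (H587.mem_co hh) hne
      rw [← hm, rl_apply, map_sub, map_nsmul]
      have h3 : L ((AddMonoidHom.id M) m) = L m := rfl
      rw [h3, h2]
      abel
    have e : (⟨ξ, hξ⟩ : tws (H587.co 𝒜 L) q (L μ) k) =
        ∑ i : {i : Fin n // L (wt i) = k}, ξ (u i) • b i := by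
      refine Subtype.ext ?_
      rw [Submodule.coe_sum]
      change ξ = ∑ i : {i : Fin n // L (wt i) = k}, ξ (u i) • v i
      have h2 : ∑ i : {i : Fin n // L (wt i) = k}, ξ (u i) • v i =
          ∑ i ∈ Finset.univ.filter (fun i => L (wt i) = k), ξ (u i) • v i := by
        rw [Finset.sum_subtype (p := fun i => L (wt i) = k)
          (Finset.univ.filter fun i => L (wt i) = k) (fun x => by simp)
          (fun i => ξ (u i) • v i)]
      rw [h2, Finset.sum_filter]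
      have h3 := hsp ξ hξ.1
      conv_lhs => rw [h3]
      refine Finset.sum_congr rfl fun i _ => ?_
      by_cases hi : L (wt i) = k
      · rw [if_pos hi]
      · rw [if_neg hi, h1 i hi, zero_smul]
    rw [e]
    exact Submodule.sum_mem _ fun i _ => Submodule.smul_mem _ _ (Submodule.subset_span ⟨i, rfl⟩)
  have B : Module.Basis {i : Fin n // L (wt i) = k} ℂ (tws (H587.co 𝒜 L) q (L μ) k) :=
    Module.Basis.mk hli hspan
  rw [Module.finrank_eq_card_basis B, Fintype.card_subtype]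

/-- The lowest slope. -/
theorem low_co (hX : IsTorusManifold 𝒜) {L : M →+ ℤ} {γ : ℤ}
    (hlow : ∀ m ∈ H587.wts 𝒜, γ ≤ L m) :
    ∀ (d : ℕ) (m : ℤ), ∀ h ∈ H587.co 𝒜 L (d, m), h ≠ 0 → d • γ ≤ m := by
  refine slope_le_of_ne (H587.isTorusManifold_co hX) fun m h hh hne => ?_
  obtain ⟨m', hm', x, hx, hx'⟩ := H587.exists_ne_of_co (LinearMap.id : R →ₗ[ℂ] R) hh hne
  rw [← hm']
  exact hlow m' ⟨x, hx, hx'⟩

/-- The number of tangent weights of `L`-value `k ≠ 0` is the dimension of the space of vectors of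
`L`-weight `k`, if the multiplicities are one. -/
theorem ncard_eq (hX : IsTorusManifold 𝒜) (L : M →+ ℤ) {y : R →ₐ[ℂ] ℂ} {ν : M}
    (hy : ¬ IsVertex 𝒜 y) (hy1 : IsFixed 𝒜 y ν)
    (hmult : ∀ ω, TangentWeight 𝒜 y ν ω → ∀ v v' : R →ₗ[ℂ] ℂ, IsTangent y v →
      HasWeight 𝒜 ν ω v → IsTangent y v' → HasWeight 𝒜 ν ω v' →
        ∃ c c' : ℂ, (c ≠ 0 ∨ c' ≠ 0) ∧ ∀ h, c * v h + c' * v' h = 0) {k : ℤ} (hk : k ≠ 0) :
    {ω | TangentWeight 𝒜 y ν ω ∧ L ω = k}.ncard =
      Module.finrank ℂ (tws (H587.co 𝒜 L) y (L ν) k) := by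
  classical
  have := noeth hX
  obtain ⟨n, u, wt, G, hn⟩ := exists_params_T hX hy (fix_of_isFixed hy1)
  rw [finrank_co hX L hy1 G hn k]
  have hset : {ω | TangentWeight 𝒜 y ν ω ∧ L ω = k} =
      (((Finset.univ.filter fun i => L (wt i) = k).image wt : Finset M) : Set M) := by
    ext ω
    simp only [Set.mem_ofPred_eq, Finset.coe_image, Set.mem_image, Finset.mem_coe,
      Finset.mem_filter, Finset.mem_univ, true_and]
    constructor
    · rintro ⟨h1, h2⟩
      obtain ⟨i, hi⟩ := wt_of_tangentWeight hX hy1 G hn h1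
      exact ⟨i, by rw [hi]; exact h2, hi⟩
    · rintro ⟨i, h1, rfl⟩
      refine ⟨tangentWeight_of_wt hX hy1 G hn ?_, h1⟩
      intro h0
      rw [h0, map_zero] at h1
      exact hk h1.symm
  rw [hset, Set.ncard_coe_finset, Finset.card_image_of_injOn]
  intro i hi j hj hij
  have hi' : L (wt i) = k := (Finset.mem_filter.1 hi).2
  by_contra hne
  obtain ⟨v, hvT, hvu, hvw, -⟩ := G.exists_dual (fix_of_isFixed hy1) hn.le
  have hwi : TangentWeight 𝒜 y ν (wt i) := tangentWeight_of_wt hX hy1 G hn (by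
    intro h0
    rw [h0, map_zero] at hi'
    exact hk hi'.symm)
  have hw1 : HasWeight 𝒜 ν (wt i) (v i) := weight_iff.mp (hvw i)
  have hw2 : HasWeight 𝒜 ν (wt i) (v j) := by
    have h1 : HasWeight 𝒜 ν (wt j) (v j) := weight_iff.mp (hvw j)
    have hij' : wt i = wt j := hij
    rw [hij']
    exact h1
  obtain ⟨c, c', hcc, h6⟩ := hmult _ hwi (v i) (v j) (hvT i) hw1 (hvT j) hw2
  have h7 := h6 (u i)
  have h8 := h6 (u j)
  rw [hvu i i, hvu j i, if_pos rfl, if_neg (Ne.symm hne), mul_one, mul_zero, add_zero] at h7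
  rw [hvu i j, hvu j j, if_pos rfl, if_neg hne, mul_one, mul_zero, zero_add] at h8
  rcases hcc with h | h
  · exact h h7
  · exact h h8

/-- **The number of tangent weights of `L`-value `k ≠ 0` is the same at all the fixed points of the
torus on the lowest component of `L`**, if the multiplicities are one. -/
theorem ncard_const (hX : IsTorusManifold 𝒜) {L : M →+ ℤ} {y y' : R →ₐ[ℂ] ℂ} {ν ν' : M}
    (hy : ¬ IsVertex 𝒜 y) (hy1 : IsFixed 𝒜 y ν) (hy' : ¬ IsVertex 𝒜 y')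
    (hy1' : IsFixed 𝒜 y' ν')
    (hmult : ∀ ω, TangentWeight 𝒜 y ν ω → ∀ v v' : R →ₗ[ℂ] ℂ, IsTangent y v →
      HasWeight 𝒜 ν ω v → IsTangent y v' → HasWeight 𝒜 ν ω v' →
        ∃ c c' : ℂ, (c ≠ 0 ∨ c' ≠ 0) ∧ ∀ h, c * v h + c' * v' h = 0)
    (hmult' : ∀ ω, TangentWeight 𝒜 y' ν' ω → ∀ v v' : R →ₗ[ℂ] ℂ, IsTangent y' v →
      HasWeight 𝒜 ν' ω v → IsTangent y' v' → HasWeight 𝒜 ν' ω v' →
        ∃ c c' : ℂ, (c ≠ 0 ∨ c' ≠ 0) ∧ ∀ h, c * v h + c' * v' h = 0)
    (hlow : ∀ m ∈ H587.wts 𝒜, L ν ≤ L m) (hL : L ν' = L ν) {k : ℤ} (hk : k ≠ 0) :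
    {ω | TangentWeight 𝒜 y ν ω ∧ L ω = k}.ncard =
      {ω | TangentWeight 𝒜 y' ν' ω ∧ L ω = k}.ncard := by
  rw [ncard_eq hX L hy hy1 hmult hk, ncard_eq hX L hy' hy1' hmult' hk]
  have h1 := H587.isFixed_co (l := L) hy1'
  rw [hL] at h1
  rw [hL]
  exact finrank_const (H587.isTorusManifold_co hX) (low_co hX hlow)
    (fun h => hy (H587.isVertex_co.1 h)) (H587.isFixed_co hy1)
    (fun h => hy' (H587.isVertex_co.1 h)) h1 k

/-- If a tangent weight of `L`-value `k ≠ 0` exists at one fixed point on the lowest component of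
`L`, it exists at all of them. -/
theorem exists_weight (hX : IsTorusManifold 𝒜) {L : M →+ ℤ} {y y' : R →ₐ[ℂ] ℂ} {ν ν' : M}
    (hy : ¬ IsVertex 𝒜 y) (hy1 : IsFixed 𝒜 y ν) (hy' : ¬ IsVertex 𝒜 y')
    (hy1' : IsFixed 𝒜 y' ν') (hlow : ∀ m ∈ H587.wts 𝒜, L ν ≤ L m) (hL : L ν' = L ν) {ω : M}
    (hω : TangentWeight 𝒜 y ν ω) (hk : L ω ≠ 0) :
    ∃ ω', TangentWeight 𝒜 y' ν' ω' ∧ L ω' = L ω := by
  classical
  obtain ⟨n, u, wt, G, hn⟩ := exists_params_T hX hy (fix_of_isFixed hy1)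
  obtain ⟨n', u', wt', G', hn'⟩ := exists_params_T hX hy' (fix_of_isFixed hy1')
  have h1 := H587.isFixed_co (l := L) hy1'
  rw [hL] at h1
  have h2 := finrank_const (H587.isTorusManifold_co hX) (low_co hX hlow)
    (fun h => hy (H587.isVertex_co.1 h)) (H587.isFixed_co hy1)
    (fun h => hy' (H587.isVertex_co.1 h)) h1 (L ω)
  have h3 := finrank_co hX L hy1' G' hn' (L ω)
  rw [hL] at h3
  rw [finrank_co hX L hy1 G hn, h3] at h2
  obtain ⟨i, hi⟩ := wt_of_tangentWeight hX hy1 G hn hω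
  have h4 : 0 < (Finset.univ.filter fun i => L (wt i) = L ω).card :=
    Finset.card_pos.2 ⟨i, Finset.mem_filter.2 ⟨Finset.mem_univ i, by rw [hi]⟩⟩
  rw [h2] at h4
  obtain ⟨j, hj⟩ := Finset.card_pos.1 h4
  have hj' := (Finset.mem_filter.1 hj).2
  refine ⟨wt' j, tangentWeight_of_wt hX hy1' G' hn' ?_, hj'⟩
  intro h0
  rw [h0, map_zero] at hj'
  exact hk hj'.symm

/-- If `χ` is the only tangent weight with its value of `L`, and it is a weight at one fixed point
on the lowest component of `L`, then it is a weight at all of them. -/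
theorem mem_of_unique (hX : IsTorusManifold 𝒜) {L : M →+ ℤ} {y y' : R →ₐ[ℂ] ℂ} {ν ν' χ : M}
    (hy : ¬ IsVertex 𝒜 y) (hy1 : IsFixed 𝒜 y ν) (hy' : ¬ IsVertex 𝒜 y')
    (hy1' : IsFixed 𝒜 y' ν') (hlow : ∀ m ∈ H587.wts 𝒜, L ν ≤ L m) (hL : L ν' = L ν)
    (hχ : TangentWeight 𝒜 y ν χ) (hk : L χ ≠ 0)
    (huniq : ∀ ω, TangentWeight 𝒜 y' ν' ω → L ω = L χ → ω = χ) : TangentWeight 𝒜 y' ν' χ := by
  obtain ⟨ω, h1, h2⟩ := exists_weight hX hy hy1 hy' hy1' hlow hL hχ hk
  rwa [huniq ω h1 h2] at h1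

end

end Vale.Agent.P280.H900
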