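import Vale.Agent.P280.H989.AC

/-! P280, stage 2: relations between the weights of a component, chamber with two positive
letters. -/

open DirectSum Vale.Agent.P280.T Vale.Agent.P280.H127 Vale.Agent.P280.N Vale.Agent.P280.N.H989

namespace Vale.Agent.P280.H900

variable {r : ℕ} {R : Type} [CommRing R] [IsDomain R] [Algebra ℂ R]
variable {𝒜 : ℕ × (Fin r → ℤ) → Submodule ℂ R} [GradedAlgebra 𝒜]
variable {N : ℤ} {n : ℕ} {f : Fin (n + 1) → Fin r → ℤ}
  {β : Fin (n + 1) → Fin (n + 1) → ((Fin r → ℤ) →+ ℤ)} {E F : Fin (n + 1) → Fin (n + 1) → VF R}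

/-- Coordinates of the letters. -/
def dl (k i : Fin (n + 1)) : ℤ := if k = i then 1 else 0

omit [GradedAlgebra 𝒜] in
theorem beta_f (hA : AC 𝒜 N n f β E F) {i j : Fin (n + 1)} (hij : i ≠ j) (k : Fin (n + 1)) :
    β i j (f k) = N * (dl k i - dl k j) := by
  rw [hA.be i j k hij, dl, dl]
  split_ifs <;> ring

/-- The coefficients of the bound. -/
def kp (c : (Fin r → ℤ) →+ ℤ) (f : Fin (n + 1) → Fin r → ℤ) (i : Fin (n + 1)) : ℤ :=
  c (f i) + if 1 < (i : ℕ) then (i : ℤ) else 0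

theorem sum_dl (g : Fin (n + 1) → ℤ) (k : Fin (n + 1)) : ∑ i, g i * dl k i = g k := by
  simp [dl]

omit [GradedAlgebra 𝒜] in
theorem vals (hA : AC 𝒜 N n f β E F) : ((0 : Fin (n + 1)) : ℕ) = 0 ∧ ((1 : Fin (n + 1)) : ℕ) = 1 ∧
    ((Fin.last n : Fin (n + 1)) : ℕ) = n := by
  have := hA.n2
  refine ⟨rfl, ?_, rfl⟩
  rw [Fin.val_one', Nat.mod_eq_of_lt (by omega)]

omit [GradedAlgebra 𝒜] in
/-- The positive weights. -/
theorem ty (hA : AC 𝒜 N n f β E F)
    (hvec : n = 2 ∨ ∀ i j, i ≠ j → ¬ Wt 𝒜 (f i + f j)) (c : (Fin r → ℤ) →+ ℤ)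
    (hord : ∀ i j, i < j → 0 < c (f i - f j)) (hc1 : 0 < c (f 1))
    (hc2 : ∀ j, 1 < j → c (f j) < 0) {ω : Fin r → ℤ} (hω : Wt 𝒜 ω) (hc : 0 < c ω) :
    (∀ i j, i ≠ j → β i j ω = 0) ∨ (∃ i j, i < j ∧ ω = f i - f j) ∨ (ω = f 0 ∨ ω = f 1) ∨
      ∃ j, 1 < j ∧ ω = -f j := by
  obtain ⟨v0, v1, vt⟩ := vals hA
  have hn2 := hA.n2
  have h01 : (0 : Fin (n + 1)) < 1 := by
    rw [Fin.lt_def]
    omega
  have hc0 : 0 < c (f 0) := by
    have := hord 0 1 h01
    rw [map_sub] at this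
    linarith
  have hcase : ∀ i : Fin (n + 1), i = 0 ∨ i = 1 ∨ 1 < i := by
    intro i
    rw [Fin.ext_iff, Fin.ext_iff, Fin.lt_def]
    omega
  rcases hA.S ω hω with h1 | ⟨i, j, hij, h1⟩ | ⟨i, h1 | h1⟩ | ⟨h3, i, j, hij, h1⟩
  · exact Or.inl h1
  · rcases lt_or_gt_of_ne hij with h2 | h2
    · exact Or.inr (Or.inl ⟨i, j, h2, h1⟩)
    · have h3 := hord j i h2
      rw [h1] at hc
      rw [map_sub] at h3 hc
      linarith
  · rcases hcase i with rfl | rfl | h2
    · exact Or.inr (Or.inr (Or.inl (Or.inl h1)))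
    · exact Or.inr (Or.inr (Or.inl (Or.inr h1)))
    · have := hc2 i h2
      rw [h1] at hc
      linarith
  · rcases hcase i with rfl | rfl | h2
    · rw [h1, map_neg] at hc
      linarith
    · rw [h1, map_neg] at hc
      linarith
    · exact Or.inr (Or.inr (Or.inr ⟨i, h2, h1⟩))
  · rcases hvec with h4 | h4
    · omega
    · exact absurd (h1 ▸ hω) (h4 i j hij)

omit [GradedAlgebra 𝒜] in
theorem one_wt (hA : AC 𝒜 N n f β E F)
    (hvec : n = 2 ∨ ∀ i j, i ≠ j → ¬ Wt 𝒜 (f i + f j)) (c : (Fin r → ℤ) →+ ℤ)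
    (hord : ∀ i j, i < j → 0 < c (f i - f j)) (hc1 : 0 < c (f 1))
    (hc2 : ∀ j, 1 < j → c (f j) < 0) {ω : Fin r → ℤ} (hω : Wt 𝒜 ω) (hc : 0 < c ω) :
    ∃ v : Fin (n + 1) → ℤ, (∀ i j, i ≠ j → β i j ω = N * (v i - v j)) ∧ v (Fin.last n) ≤ 0 ∧
      -1 ≤ v (Fin.last n) ∧
      0 ≤ v 0 + v 1 ∧ v 0 + v 1 ≤ 1 ∧ (v (Fin.last n) = -1 → ω = -f (Fin.last n) ∨
        ∃ i, ω = f i - f (Fin.last n)) ∧
      (((ω = f 0 ∨ ω = f 1 ∨ ω = f 0 - f 1) ∧ ∑ i, kp c f i * v i = c ω ∧ 1 ≤ 2 * v 0 + v 1) ∨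
        ∑ i, kp c f i * v i < c ω) := by
  obtain ⟨v0, v1, vt⟩ := vals hA
  have hn2 := hA.n2
  have ne01 : (0 : Fin (n + 1)) ≠ 1 := by
    rw [Ne, Fin.ext_iff]
    omega
  have ne0t : (0 : Fin (n + 1)) ≠ Fin.last n := by
    rw [Ne, Fin.ext_iff]
    omega
  have ne1t : (1 : Fin (n + 1)) ≠ Fin.last n := by
    rw [Ne, Fin.ext_iff]
    omega
  rcases ty hA hvec c hord hc1 hc2 hω hc with h1 | ⟨i, j, hij, h1⟩ | h1 | ⟨j, hj, h1⟩
  · refine ⟨0, fun i j hij => by rw [h1 i j hij]; simp, by simp, by simp, by simp, by simp,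
      fun h => ?_, Or.inr ?_⟩
    · simp at h
    · simpa using hc
  · have hit : i ≠ Fin.last n := by
      rw [Ne, Fin.ext_iff]
      rw [Fin.lt_def] at hij
      have := j.2
      omega
    have hsq : 0 ≤ dl i 0 - dl j 0 + (dl i 1 - dl j 1) ∧
        dl i 0 - dl j 0 + (dl i 1 - dl j 1) ≤ 1 := by
      have hj0 : j ≠ 0 := by
        rw [Fin.lt_def] at hij
        rw [Ne, Fin.ext_iff]
        omega
      by_cases hj1 : j = 1
      · have hi0 : i = 0 := by
          rw [hj1, Fin.lt_def] at hij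
          rw [Fin.ext_iff]
          omega
        rw [hj1, hi0]
        simp [dl, ne01, ne01.symm]
      · by_cases hi0 : i = 0
        · simp [dl, hj0, hj1, hi0, ne01]
        · simp only [dl, if_neg hj0, if_neg hj1, if_neg hi0]
          split_ifs <;> norm_num
    refine ⟨fun k => dl i k - dl j k, fun a b hab => ?_, ?_, ?_, ?_, ?_, ?_, ?_⟩
    · rw [h1, map_sub, beta_f hA hab, beta_f hA hab]
      ring
    · simp only [dl, if_neg hit]
      split_ifs <;> norm_num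
    · simp only [dl, if_neg hit]
      split_ifs <;> norm_num
    · exact hsq.1
    · exact hsq.2
    · intro h
      by_cases a1 : j = Fin.last n
      · exact Or.inr ⟨i, by rw [h1, a1]⟩
      · exfalso
        simp [dl, hit, a1] at h
    · have hs : ∑ k, kp c f k * (dl i k - dl j k) = kp c f i - kp c f j := by
        simp only [mul_sub, Finset.sum_sub_distrib, sum_dl]
      rw [Fin.lt_def] at hij
      rw [hs, h1, map_sub, kp, kp]
      by_cases hj1 : 1 < (j : ℕ)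
      · right
        rw [if_pos hj1]
        have : (0 : ℤ) < (j : ℤ) := by exact_mod_cast (by omega : 0 < (j : ℕ))
        have h3 : (if 1 < (i : ℕ) then (i : ℤ) else 0) < (j : ℤ) := by
          split_ifs
          · exact_mod_cast hij
          · exact this
        linarith
      · left
        have hi0 : i = 0 := by
          rw [Fin.ext_iff]
          omega
        have hj0 : j = 1 := by
          rw [Fin.ext_iff]
          omega
        subst hi0
        subst hj0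
        refine ⟨Or.inr (Or.inr rfl), ?_, ?_⟩
        · rw [if_neg hj1, if_neg (by omega)]
          ring
        · simp only [dl]
          rw [if_neg ne01, if_neg ne01.symm]
          simp
  · rcases h1 with h1 | h1
    · refine ⟨dl 0, fun a b hab => by rw [h1, beta_f hA hab], ?_, ?_, ?_, ?_, ?_, Or.inl ⟨Or.inl h1, ?_, ?_⟩⟩
      · simp [dl, ne0t]
      · simp [dl, ne0t]
      · simp [dl, ne01]
      · simp [dl, ne01]
      · intro h
        simp [dl, ne0t] at h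
      · rw [sum_dl, kp, if_neg (by omega), add_zero, h1]
      · simp [dl, ne01]
    · refine ⟨dl 1, fun a b hab => by rw [h1, beta_f hA hab], ?_, ?_, ?_, ?_, ?_,
        Or.inl ⟨Or.inr (Or.inl h1), ?_, ?_⟩⟩
      · simp [dl, ne1t]
      · simp [dl, ne1t]
      · simp [dl, ne01.symm]
      · simp [dl, ne01.symm]
      · intro h
        simp [dl, ne1t] at h
      · rw [sum_dl, kp, if_neg (by omega), add_zero, h1]
      · simp [dl, ne01.symm]
  · have hj0 : j ≠ 0 := by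
      rintro rfl
      rw [Fin.lt_def] at hj
      omega
    have hj1 : j ≠ 1 := by
      rintro rfl
      exact lt_irrefl _ hj
    refine ⟨fun k => -dl j k, fun a b hab => ?_, ?_, ?_, ?_, ?_, ?_, Or.inr ?_⟩
    · rw [h1, map_neg, beta_f hA hab]
      ring
    · simp only [dl]
      split_ifs <;> norm_num
    · simp only [dl]
      split_ifs <;> norm_num
    · simp [dl, hj0, hj1]
    · simp [dl, hj0, hj1]
    · intro h
      by_cases a1 : j = Fin.last n
      · exact Or.inl (by rw [h1, a1])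
      · exfalso
        simp [dl, a1] at h
    · have hs : ∑ k, kp c f k * -dl j k = -kp c f j := by
        simp only [mul_neg, Finset.sum_neg_distrib, sum_dl]
      rw [Fin.lt_def] at hj
      rw [hs, h1, map_neg, kp, if_pos (by omega)]
      have : (0 : ℤ) < (j : ℤ) := by exact_mod_cast (by omega : 0 < (j : ℕ))
      linarith

omit [GradedAlgebra 𝒜] in
theorem lst (hA : AC 𝒜 N n f β E F)
    (hvec : n = 2 ∨ ∀ i j, i ≠ j → ¬ Wt 𝒜 (f i + f j)) (c : (Fin r → ℤ) →+ ℤ)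
    (hord : ∀ i j, i < j → 0 < c (f i - f j)) (hc1 : 0 < c (f 1))
    (hc2 : ∀ j, 1 < j → c (f j) < 0) (L : List (Fin r → ℤ)) (hL : ∀ ω ∈ L, Wt 𝒜 ω ∧ 0 < c ω) :
    ∃ S : Fin (n + 1) → ℤ, (∀ i j, i ≠ j → β i j L.sum = N * (S i - S j)) ∧
      S (Fin.last n) ≤ 0 ∧ 0 ≤ S 0 + S 1 ∧ ∑ i, kp c f i * S i ≤ c L.sum ∧
      (∑ i, kp c f i * S i = c L.sum → (∀ ω ∈ L, ω = f 0 ∨ ω = f 1 ∨ ω = f 0 - f 1) ∧
        (L.length : ℤ) ≤ 2 * S 0 + S 1) := by
  induction L with
  | nil => exact ⟨0, by simp, by simp, by simp, by simp, by simp⟩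
  | cons x L ih =>
    obtain ⟨S, s1, s2, s3, s4, s5⟩ := ih fun ω h => hL ω (List.mem_cons_of_mem _ h)
    obtain ⟨hx1, hx2⟩ := hL x List.mem_cons_self
    obtain ⟨v, t1, t2, -, t3, -, -, t4⟩ := one_wt hA hvec c hord hc1 hc2 hx1 hx2
    refine ⟨fun i => v i + S i, fun i j hij => ?_, ?_, ?_, ?_, ?_⟩
    · rw [List.sum_cons, map_add, t1 i j hij, s1 i j hij]
      ring
    · simp only
      linarith
    · simp only
      linarith
    · have h1 : ∑ i, kp c f i * (v i + S i) = ∑ i, kp c f i * v i + ∑ i, kp c f i * S i := by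
        simp only [mul_add, Finset.sum_add_distrib]
      rw [h1, List.sum_cons, map_add]
      rcases t4 with ⟨-, t4, -⟩ | t4 <;> linarith
    · have h1 : ∑ i, kp c f i * (v i + S i) = ∑ i, kp c f i * v i + ∑ i, kp c f i * S i := by
        simp only [mul_add, Finset.sum_add_distrib]
      rw [h1, List.sum_cons, map_add]
      intro h2
      rcases t4 with ⟨t5, t6, t7⟩ | t4
      · obtain ⟨u1, u2⟩ := s5 (by linarith)
        refine ⟨fun ω h => ?_, ?_⟩
        · rcases List.mem_cons.1 h with h3 | h3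
          · rw [h3]
            exact t5
          · exact u1 ω h3
        · rw [List.length_cons]
          push_cast
          linarith
      · exfalso
        linarith

omit [GradedAlgebra 𝒜] in
theorem sum_pos (c : (Fin r → ℤ) →+ ℤ) (L : List (Fin r → ℤ)) (hL : ∀ ω ∈ L, Wt 𝒜 ω ∧ 0 < c ω)
    (hne : L ≠ []) : 0 < c L.sum := by
  induction L with
  | nil => exact absurd rfl hne
  | cons x L ih =>
    rw [List.sum_cons, map_add]
    have h1 := (hL x List.mem_cons_self).2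
    by_cases h : L = []
    · rw [h, List.sum_nil, map_zero]
      linarith
    · have := ih (fun ω h => hL ω (List.mem_cons_of_mem _ h)) h
      linarith

omit [GradedAlgebra 𝒜] in
/-- The relation for fields of weight `-f t`. -/
theorem rel_field (hA : AC 𝒜 N n f β E F)
    (hvec : n = 2 ∨ ∀ i j, i ≠ j → ¬ Wt 𝒜 (f i + f j)) (c : (Fin r → ℤ) →+ ℤ)
    (hord : ∀ i j, i < j → 0 < c (f i - f j)) (hc1 : 0 < c (f 1))
    (hc2 : ∀ j, 1 < j → c (f j) < 0) {L : List (Fin r → ℤ)} (hL : ∀ ω ∈ L, Wt 𝒜 ω ∧ 0 < c ω)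
    (hne : L ≠ []) {ψ : Fin r → ℤ} (hψ : ψ = 0 ∨ Wt 𝒜 ψ) (h : ψ = -f (Fin.last n) + L.sum) :
    (ψ = f 0 - f (Fin.last n) ∧ L.sum = f 0) ∨ (ψ = f 1 - f (Fin.last n) ∧ L.sum = f 1) := by
  obtain ⟨v0, v1, vt⟩ := vals hA
  have hn2 := hA.n2
  have ne01 : (0 : Fin (n + 1)) ≠ 1 := by
    rw [Ne, Fin.ext_iff]
    omega
  have ne0t : (0 : Fin (n + 1)) ≠ Fin.last n := by
    rw [Ne, Fin.ext_iff]
    omega
  have ne1t : (1 : Fin (n + 1)) ≠ Fin.last n := by
    rw [Ne, Fin.ext_iff]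
    omega
  have ht1 : (1 : Fin (n + 1)) < Fin.last n := by
    rw [Fin.lt_def]
    omega
  have hpos := sum_pos c L hL hne
  have hct := hc2 _ ht1
  have hcψ : 0 < c ψ := by
    rw [h, map_add, map_neg]
    linarith
  have hψ' : Wt 𝒜 ψ := by
    rcases hψ with h1 | h1
    · rw [h1, map_zero] at hcψ
      exact absurd hcψ (lt_irrefl _)
    · exact h1
  obtain ⟨S, s1, s2, s3, -, -⟩ := lst hA hvec c hord hc1 hc2 L hL
  obtain ⟨v, t1, t2, t2', t3, t3', t4, -⟩ := one_wt hA hvec c hord hc1 hc2 hψ' hcψ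
  have hN := hA.N0
  have key : ∀ i, i ≠ Fin.last n → v i - v (Fin.last n) = 1 + (S i - S (Fin.last n)) := by
    intro i hi
    have h1 := t1 i _ hi
    rw [h, map_add, map_neg, beta_f hA hi, s1 i _ hi] at h1
    have h2 : dl (Fin.last n) i = 0 := by simp [dl, hi.symm]
    have h3 : dl (Fin.last n) (Fin.last n) = 1 := by simp [dl]
    rw [h2, h3] at h1
    have h4 : N * (v i - v (Fin.last n)) = N * (1 + (S i - S (Fin.last n))) := by
      rw [← h1]
      ring
    exact mul_left_cancel₀ hN.ne' h4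
  have k0 := key 0 ne0t
  have k1 := key 1 ne1t
  have hv : v (Fin.last n) = -1 := by omega
  rcases t4 hv with h5 | ⟨i, h5⟩
  · exfalso
    rw [h5] at h
    have h6 : L.sum = 0 := by
      have h7 := h.symm
      rwa [add_eq_left] at h7
    rw [h6, map_zero] at hpos
    exact lt_irrefl _ hpos
  · have h6 : L.sum = f i := by
      have h7 : f i - f (Fin.last n) = -f (Fin.last n) + L.sum := by rw [← h5, h]
      have h8 : f i - f (Fin.last n) + f (Fin.last n) = L.sum := by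
        rw [h7]
        abel
      rw [← h8]
      abel
    have hcase : i = 0 ∨ i = 1 ∨ 1 < i := by
      rw [Fin.ext_iff, Fin.ext_iff, Fin.lt_def]
      omega
    rcases hcase with rfl | rfl | h7
    · exact Or.inl ⟨h5, h6⟩
    · exact Or.inr ⟨h5, h6⟩
    · exfalso
      have := hc2 i h7
      rw [h6] at hpos
      linarith

omit [GradedAlgebra 𝒜] in
theorem rel_aux (hA : AC 𝒜 N n f β E F)
    (hvec : n = 2 ∨ ∀ i j, i ≠ j → ¬ Wt 𝒜 (f i + f j)) (c : (Fin r → ℤ) →+ ℤ)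
    (hord : ∀ i j, i < j → 0 < c (f i - f j)) (hc1 : 0 < c (f 1))
    (hc2 : ∀ j, 1 < j → c (f j) < 0) {L : List (Fin r → ℤ)} (hL : ∀ ω ∈ L, Wt 𝒜 ω ∧ 0 < c ω)
    {a : Fin (n + 1)} (ha : a = 0 ∨ a = 1) (h : L.sum = f a) :
    (∀ ω ∈ L, ω = f 0 ∨ ω = f 1 ∨ ω = f 0 - f 1) ∧
      (L.length : ℤ) ≤ 2 * dl a 0 + dl a 1 := by
  obtain ⟨v0, v1, vt⟩ := vals hA
  have hn2 := hA.n2
  have ne01 : (0 : Fin (n + 1)) ≠ 1 := by
    rw [Ne, Fin.ext_iff]
    omega
  have ne0t : (0 : Fin (n + 1)) ≠ Fin.last n := by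
    rw [Ne, Fin.ext_iff]
    omega
  have ne1t : (1 : Fin (n + 1)) ≠ Fin.last n := by
    rw [Ne, Fin.ext_iff]
    omega
  obtain ⟨S, s1, s2, s3, -, s5⟩ := lst hA hvec c hord hc1 hc2 L hL
  have hN := hA.N0
  have hat : a ≠ Fin.last n := by
    rcases ha with rfl | rfl
    · exact ne0t
    · exact ne1t
  have key : ∀ i, S i = dl a i + S (Fin.last n) := by
    intro i
    by_cases hi : i = Fin.last n
    · subst hi
      simp [dl, hat]
    · have h1 := s1 i _ hi
      rw [h, beta_f hA hi] at h1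
      have h2 := mul_left_cancel₀ hN.ne' h1
      have h3 : dl a (Fin.last n) = 0 := by simp [dl, hat]
      rw [h3] at h2
      linarith
  have hsum : dl a 0 + dl a 1 = 1 := by
    rcases ha with rfl | rfl
    · simp [dl, ne01]
    · simp [dl, ne01.symm]
  have hS : S (Fin.last n) = 0 := by
    have h1 := key 0
    have h2 := key 1
    omega
  have key' : ∀ i, S i = dl a i := fun i => by rw [key i, hS, add_zero]
  have h1 : ∑ i, kp c f i * S i = c L.sum := by
    simp only [key']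
    rw [sum_dl, kp, h, if_neg, add_zero]
    rcases ha with rfl | rfl <;> omega
  obtain ⟨h2, h3⟩ := s5 h1
  refine ⟨h2, ?_⟩
  rw [key' 0, key' 1] at h3
  exact h3

omit [GradedAlgebra 𝒜] in
/-- The relation for functions of weight `f 1`. -/
theorem rel_fun1 (hA : AC 𝒜 N n f β E F)
    (hvec : n = 2 ∨ ∀ i j, i ≠ j → ¬ Wt 𝒜 (f i + f j)) (c : (Fin r → ℤ) →+ ℤ)
    (hord : ∀ i j, i < j → 0 < c (f i - f j)) (hc1 : 0 < c (f 1))
    (hc2 : ∀ j, 1 < j → c (f j) < 0) {L : List (Fin r → ℤ)} (hL : ∀ ω ∈ L, Wt 𝒜 ω ∧ 0 < c ω)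
    (h : L.sum = f 1) : L = [f 1] := by
  obtain ⟨v0, v1, vt⟩ := vals hA
  have hn2 := hA.n2
  have ne01 : (0 : Fin (n + 1)) ≠ 1 := by
    rw [Ne, Fin.ext_iff]
    omega
  obtain ⟨-, h2⟩ := rel_aux hA hvec c hord hc1 hc2 hL (Or.inr rfl) h
  have h3 : (2 : ℤ) * dl (1 : Fin (n + 1)) 0 + dl (1 : Fin (n + 1)) 1 = 1 := by simp [dl, ne01.symm]
  rw [h3] at h2
  match L, h2, h with
  | [], _, h =>
    rw [List.sum_nil] at h
    rw [← h, map_zero] at hc1
    exact absurd hc1 (lt_irrefl _)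
  | [x], _, h =>
    rw [List.sum_singleton] at h
    rw [h]
  | x :: y :: L', h2, _ =>
    rw [List.length_cons, List.length_cons] at h2
    push_cast at h2
    omega

omit [GradedAlgebra 𝒜] in
/-- The relation for functions of weight `f 0`. -/
theorem rel_fun0 (hA : AC 𝒜 N n f β E F)
    (hvec : n = 2 ∨ ∀ i j, i ≠ j → ¬ Wt 𝒜 (f i + f j)) (c : (Fin r → ℤ) →+ ℤ)
    (hord : ∀ i j, i < j → 0 < c (f i - f j)) (hc1 : 0 < c (f 1))
    (hc2 : ∀ j, 1 < j → c (f j) < 0) {L : List (Fin r → ℤ)} (hL : ∀ ω ∈ L, Wt 𝒜 ω ∧ 0 < c ω)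
    (h : L.sum = f 0) : L = [f 0] ∨ L = [f 1, f 0 - f 1] ∨ L = [f 0 - f 1, f 1] := by
  obtain ⟨v0, v1, vt⟩ := vals hA
  have hn2 := hA.n2
  have ne01 : (0 : Fin (n + 1)) ≠ 1 := by
    rw [Ne, Fin.ext_iff]
    omega
  obtain ⟨h1, h2⟩ := rel_aux hA hvec c hord hc1 hc2 hL (Or.inl rfl) h
  have h3 : (2 : ℤ) * dl (0 : Fin (n + 1)) 0 + dl (0 : Fin (n + 1)) 1 = 2 := by simp [dl, ne01]
  rw [h3] at h2
  have hc0 : 0 < c (f 0) := by
    have h01 : (0 : Fin (n + 1)) < 1 := by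
      rw [Fin.lt_def]
      omega
    have := hord 0 1 h01
    rw [map_sub] at this
    linarith
  match L, hL, h1, h2, h with
  | [], _, _, _, h =>
    rw [List.sum_nil] at h
    rw [← h, map_zero] at hc0
    exact absurd hc0 (lt_irrefl _)
  | [x], _, _, _, h =>
    rw [List.sum_singleton] at h
    exact Or.inl (by rw [h])
  | [x, y], hL, h1, _, h =>
    have h' : x + y = f 0 := by simpa using h
    have hy : y = f 0 - x := by rw [← h']; abel
    have hy2 := (hL y (by simp)).2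
    rcases h1 x (by simp) with h4 | h4 | h4
    · exfalso
      rw [hy, h4, sub_self, map_zero] at hy2
      exact lt_irrefl _ hy2
    · exact Or.inr (Or.inl (by rw [hy, h4]))
    · exact Or.inr (Or.inr (by rw [hy, h4, sub_sub_cancel]))
  | x :: y :: z :: L', _, _, h2, _ =>
    rw [List.length_cons, List.length_cons, List.length_cons] at h2
    push_cast at h2
    omega

end Vale.Agent.P280.H900
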