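import Vale.Agent.P280.N2.Defs
import Vale.Agent.P280.N.A04
import Vale.Agent.P280.N.C03
import Vale.Agent.P280.H900.Rel

/-! P280, stage 2: the points with one negative weight are unique. -/

open DirectSum Vale.Agent.P280.T Vale.Agent.P280.H127 Vale.Agent.P280.N Vale.Agent.P280.N.H989
open Vale.Agent.P280.N2

namespace Vale.Agent.P280.H900

variable {r : ℕ} {R : Type} [CommRing R] [IsDomain R] [Algebra ℂ R]
variable {𝒜 : ℕ × (Fin r → ℤ) → Submodule ℂ R} [GradedAlgebra 𝒜]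
variable {N : ℤ} {n : ℕ} {f : Fin (n + 1) → Fin r → ℤ}
  {β : Fin (n + 1) → Fin (n + 1) → ((Fin r → ℤ) →+ ℤ)} {E F : Fin (n + 1) → Fin (n + 1) → VF R}

/-- Uniqueness of the wall point, from a functional which vanishes on `b`. -/
theorem wall_gen (H : Hyp 𝒜) (l c : (Fin r → ℤ) →+ ℤ) (hc : ∀ μ, Wt 𝒜 μ → c μ ≠ 0)
    {b : Fin r → ℤ} (hcb : 0 < c b) (hlb : l b = 0)
    (hl : ∀ μ, Wt 𝒜 μ → 0 < c μ → μ ≠ b → 0 < l μ) {q q' : FP 𝒜}
    (hq : q.Pi (-b)) (hoth : ∀ ψ, q.Pi ψ → ψ ≠ -b → 0 < c ψ)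
    (hq' : q'.Pi (-b)) (hoth' : ∀ ψ, q'.Pi ψ → ψ ≠ -b → 0 < c ψ) : SamePoint 𝒜 q.q q'.q := by
  obtain ⟨K, hK0, hK⟩ := c03_bound H c
  let g : (Fin r → ℤ) →+ ℤ := (K + 1) • l - c
  have hg : ∀ μ, g μ = (K + 1) * l μ - c μ := fun μ => by
    change (K + 1) • l μ - c μ = _
    rw [smul_eq_mul]
  have hpos : ∀ (y : FP 𝒜), y.Pi (-b) → (∀ ψ, y.Pi ψ → ψ ≠ -b → 0 < c ψ) → Pos g y ∧
      ∀ ψ, y.Pi ψ → g ψ ≠ 0 := by
    intro y hy hoth
    have key : ∀ ψ, y.Pi ψ → 0 < g ψ := by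
      intro ψ hψ
      rw [hg]
      by_cases h : ψ = -b
      · rw [h, map_neg, map_neg, hlb]
        linarith
      · have h1 := hoth ψ hψ h
        have hne : ψ ≠ b := by
          rintro rfl
          exact H170.not_pi_neg H hψ hy
        have h2 := hl ψ ⟨y, hψ⟩ h1 hne
        have h3 := (abs_le.1 (hK ψ ⟨y, hψ⟩)).2
        nlinarith
    exact ⟨fun ψ hψ => (key ψ hψ).le, fun ψ hψ => (key ψ hψ).ne'⟩
  have hgne : ∀ μ, Wt 𝒜 μ → g μ ≠ 0 := by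
    have hp : ∀ μ, Wt 𝒜 μ → 0 < c μ → g μ ≠ 0 := by
      intro μ hμ hcμ
      rw [hg]
      by_cases h : μ = b
      · rw [h, hlb]
        intro h1
        linarith
      · have h2 := hl μ hμ hcμ h
        have h3 := (abs_le.1 (hK μ hμ)).2
        have : 0 < (K + 1) * l μ - c μ := by nlinarith
        exact this.ne'
    intro μ hμ
    rcases lt_or_gt_of_ne (hc μ hμ) with h | h
    · have h1 := hp (-μ) (wt_neg H hμ) (by rw [map_neg]; linarith)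
      rw [map_neg] at h1
      exact fun h2 => h1 (by rw [h2, neg_zero])
    · exact hp μ hμ h
  exact pos_unique H g hgne (hpos q hq hoth).1 (hpos q' hq' hoth').1

/-- The signs of `l` from its positivity. -/
theorem sign_of (H : Hyp 𝒜) {l c : (Fin r → ℤ) →+ ℤ} (hc : ∀ μ, Wt 𝒜 μ → c μ ≠ 0)
    {b : Fin r → ℤ} (hcb : 0 < c b) (hlb : l b = 0)
    (hl : ∀ μ, Wt 𝒜 μ → 0 < c μ → μ ≠ b → 0 < l μ) :
    (∀ μ, Wt 𝒜 μ → (0 < l μ → 0 < c μ) ∧ (l μ < 0 → c μ < 0)) ∧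
      ∀ μ, Wt 𝒜 μ → l μ = 0 → μ = b ∨ μ = -b := by
  have key : ∀ μ, Wt 𝒜 μ → c μ < 0 → μ = -b ∨ l μ < 0 := by
    intro μ hμ hcμ
    by_cases h : -μ = b
    · exact Or.inl (by rw [← h, neg_neg])
    · have h1 := hl (-μ) (wt_neg H hμ) (by rw [map_neg]; linarith) h
      rw [map_neg] at h1
      exact Or.inr (by linarith)
  have key' : ∀ μ, Wt 𝒜 μ → 0 < c μ → μ = b ∨ 0 < l μ := by
    intro μ hμ hcμ
    by_cases h : μ = b
    · exact Or.inl h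
    · exact Or.inr (hl μ hμ hcμ h)
  refine ⟨fun μ hμ => ⟨fun h => ?_, fun h => ?_⟩, fun μ hμ h => ?_⟩
  · rcases lt_or_gt_of_ne (hc μ hμ) with h1 | h1
    · rcases key μ hμ h1 with h2 | h2
      · rw [h2, map_neg, hlb] at h
        exact absurd h (by norm_num)
      · linarith
    · exact h1
  · rcases lt_or_gt_of_ne (hc μ hμ) with h1 | h1
    · exact h1
    · rcases key' μ hμ h1 with h2 | h2
      · rw [h2, hlb] at h
        exact absurd h (lt_irrefl _)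
      · linarith
  · rcases lt_or_gt_of_ne (hc μ hμ) with h1 | h1
    · rcases key μ hμ h1 with h2 | h2
      · exact Or.inr h2
      · linarith
    · rcases key' μ hμ h1 with h2 | h2
      · exact Or.inl h2
      · linarith

omit [GradedAlgebra 𝒜] in
theorem hc0_of (hA : AC 𝒜 N n f β E F) {c : (Fin r → ℤ) →+ ℤ} (hc : Ch2 𝒜 n f c) :
    0 < c (f 0) := by
  obtain ⟨v0, v1, vt⟩ := vals hA
  have h01 : (0 : Fin (n + 1)) < 1 := by
    rw [Fin.lt_def]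
    omega
  exact hc.pos.trans (hc.ord 0 1 h01)

omit [GradedAlgebra 𝒜] in
/-- The positive weights (no vectors). -/
theorem ty' (hA : AC 𝒜 N n f β E F) (hv : NoVec 𝒜 n f) {c : (Fin r → ℤ) →+ ℤ}
    (hc : Ch2 𝒜 n f c) {ω : Fin r → ℤ} (hω : Wt 𝒜 ω) (hcω : 0 < c ω) :
    (∀ i j, i ≠ j → β i j ω = 0) ∨ (∃ i j, i < j ∧ ω = f i - f j) ∨ (ω = f 0 ∨ ω = f 1) ∨
      ∃ j, 1 < j ∧ ω = -f j := by
  obtain ⟨v0, v1, vt⟩ := vals hA
  have hn2 := hA.n2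
  have hc0 := hc0_of hA hc
  have hc1 := hc.pos
  have hneg : ∀ j : Fin (n + 1), 1 < j → c (f j) < 0 := fun j hj => hc.neg j (by
    rw [Fin.lt_def] at hj
    omega)
  have hcase : ∀ i : Fin (n + 1), i = 0 ∨ i = 1 ∨ 1 < i := by
    intro i
    rw [Fin.ext_iff, Fin.ext_iff, Fin.lt_def]
    omega
  rcases hA.S ω hω with h1 | ⟨i, j, hij, h1⟩ | ⟨i, h1 | h1⟩ | ⟨h3, i, j, hij, h1⟩
  · exact Or.inl h1
  · rcases lt_or_gt_of_ne hij with h2 | h2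
    · exact Or.inr (Or.inl ⟨i, j, h2, h1⟩)
    · have h3 := hc.ord j i h2
      rw [h1, map_sub] at hcω
      linarith
  · rcases hcase i with rfl | rfl | h2
    · exact Or.inr (Or.inr (Or.inl (Or.inl h1)))
    · exact Or.inr (Or.inr (Or.inl (Or.inr h1)))
    · have := hneg i h2
      rw [h1] at hcω
      linarith
  · rcases hcase i with rfl | rfl | h2
    · rw [h1, map_neg] at hcω
      linarith
    · rw [h1, map_neg] at hcω
      linarith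
    · exact Or.inr (Or.inr (Or.inr ⟨i, h2, h1⟩))
  · exact absurd (h1 ▸ hω) (hv h3 i j hij)

/-- A functional with values `x k` on the letters, positive on the positive weights. -/
theorem pos_of_x (hA : AC 𝒜 N n f β E F) (hv : NoVec 𝒜 n f) {c : (Fin r → ℤ) →+ ℤ}
    (hc : Ch2 𝒜 n f c) {l : (Fin r → ℤ) →+ ℤ} {b : Fin r → ℤ}
    (hnul : ∀ μ, (∀ i j, i ≠ j → β i j μ = 0) → 0 < c μ → 0 < l μ)
    (h01 : f 0 - f 1 ≠ b → l (f 1) < l (f 0)) (h1 : f 1 ≠ b → 0 < l (f 1))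
    (h1' : 0 ≤ l (f 1)) (h10 : l (f 1) ≤ l (f 0)) (h0 : 0 < l (f 0))
    (hj : ∀ j : Fin (n + 1), 1 < j → l (f j) < 0)
    (hij : ∀ i j : Fin (n + 1), 1 < i → i < j → l (f j) < l (f i)) :
    ∀ μ, Wt 𝒜 μ → 0 < c μ → μ ≠ b → 0 < l μ := by
  intro μ hμ hcμ hne
  obtain ⟨v0, v1, vt⟩ := vals hA
  have hn2 := hA.n2
  have hcase : ∀ i : Fin (n + 1), i = 0 ∨ i = 1 ∨ 1 < i := by
    intro i
    rw [Fin.ext_iff, Fin.ext_iff, Fin.lt_def]
    omega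
  rcases ty' hA hv hc hμ hcμ with h | ⟨i, j, h, rfl⟩ | h | ⟨j, h, rfl⟩
  · exact hnul μ h hcμ
  · rw [map_sub]
    rcases hcase i with rfl | rfl | hi
    · rcases hcase j with rfl | rfl | hj'
      · exact absurd h (lt_irrefl _)
      · have := h01 hne
        linarith
      · have := hj j hj'
        linarith
    · have := hj j h
      linarith
    · have := hij i j hi h
      linarith
  · rcases h with rfl | rfl
    · exact h0
    · exact h1 hne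
  · rw [map_neg]
    have := hj j h
    linarith

omit [GradedAlgebra 𝒜] in
theorem b01 (hA : AC 𝒜 N n f β E F) : β 0 1 (f 0) = N ∧ β 0 1 (f 1) = -N ∧
    ∀ j : Fin (n + 1), 1 < j → β 0 1 (f j) = 0 := by
  obtain ⟨v0, v1, vt⟩ := vals hA
  have hn2 := hA.n2
  have ne01 : (0 : Fin (n + 1)) ≠ 1 := by
    rw [Ne, Fin.ext_iff]
    omega
  refine ⟨?_, ?_, fun j hj => ?_⟩
  · rw [hA.be 0 1 0 ne01, if_pos rfl, if_neg ne01, sub_zero]
  · rw [hA.be 0 1 1 ne01, if_neg ne01.symm, if_pos rfl, zero_sub]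
  · have hj0 : j ≠ 0 := by
      rintro rfl
      rw [Fin.lt_def] at hj
      omega
    rw [hA.be 0 1 j ne01, if_neg hj0, if_neg (ne_of_gt hj), sub_zero]

/-- The functional of the wall `f 1`. -/
def lA (N : ℤ) (c : (Fin r → ℤ) →+ ℤ) (f : Fin (n + 1) → Fin r → ℤ)
    (β : Fin (n + 1) → Fin (n + 1) → ((Fin r → ℤ) →+ ℤ)) : (Fin r → ℤ) →+ ℤ :=
  N • c + c (f 1) • β 0 1

/-- The functional of the wall `f 0 - f 1`. -/
def lB (N : ℤ) (c : (Fin r → ℤ) →+ ℤ) (f : Fin (n + 1) → Fin r → ℤ)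
    (β : Fin (n + 1) → Fin (n + 1) → ((Fin r → ℤ) →+ ℤ)) : (Fin r → ℤ) →+ ℤ :=
  (2 * N) • c - c (f 0 - f 1) • β 0 1

omit [CommRing R] [IsDomain R] [Algebra ℂ R] in
theorem lA_apply (c : (Fin r → ℤ) →+ ℤ) (μ : Fin r → ℤ) :
    lA N c f β μ = N * c μ + c (f 1) * β 0 1 μ := by
  change N • c μ + c (f 1) • β 0 1 μ = _
  rw [smul_eq_mul, smul_eq_mul]

omit [CommRing R] [IsDomain R] [Algebra ℂ R] in
theorem lB_apply (c : (Fin r → ℤ) →+ ℤ) (μ : Fin r → ℤ) :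
    lB N c f β μ = 2 * N * c μ - c (f 0 - f 1) * β 0 1 μ := by
  change (2 * N) • c μ - c (f 0 - f 1) • β 0 1 μ = _
  rw [smul_eq_mul, smul_eq_mul]

theorem lA_b (hA : AC 𝒜 N n f β E F) (c : (Fin r → ℤ) →+ ℤ) : lA N c f β (f 1) = 0 := by
  rw [lA_apply, (b01 hA).2.1]
  ring

theorem lB_b (hA : AC 𝒜 N n f β E F) (c : (Fin r → ℤ) →+ ℤ) : lB N c f β (f 0 - f 1) = 0 := by
  rw [lB_apply, map_sub (β 0 1), (b01 hA).2.1, (b01 hA).1]
  ring

theorem lA_pos (hA : AC 𝒜 N n f β E F) (hv : NoVec 𝒜 n f) {c : (Fin r → ℤ) →+ ℤ}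
    (hc : Ch2 𝒜 n f c) : ∀ μ, Wt 𝒜 μ → 0 < c μ → μ ≠ f 1 → 0 < lA N c f β μ := by
  obtain ⟨v0, v1, vt⟩ := vals hA
  have hn2 := hA.n2
  have hN := hA.N0
  have hc0 := hc0_of hA hc
  have hc1 := hc.pos
  obtain ⟨b0, b1, bj⟩ := b01 hA
  have ne01 : (0 : Fin (n + 1)) ≠ 1 := by
    rw [Ne, Fin.ext_iff]
    omega
  have e0 : lA N c f β (f 0) = N * (c (f 0) + c (f 1)) := by
    rw [lA_apply, b0]
    ring
  have e1 := lA_b hA c
  have hneg : ∀ j : Fin (n + 1), 1 < j → c (f j) < 0 := fun j hj => hc.neg j (by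
    rw [Fin.lt_def] at hj
    omega)
  have ej : ∀ j : Fin (n + 1), 1 < j → lA N c f β (f j) = N * c (f j) := fun j hj => by
    rw [lA_apply, bj j hj]
    ring
  refine pos_of_x hA hv hc ?_ ?_ ?_ ?_ ?_ ?_ ?_ ?_
  · intro μ hμ hcμ
    rw [lA_apply, hμ 0 1 ne01, mul_zero, add_zero]
    positivity
  · intro _
    rw [e0, e1]
    positivity
  · intro h
    exact absurd rfl h
  · rw [e1]
  · rw [e0, e1]
    positivity
  · rw [e0]
    positivity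
  · intro j hj
    rw [ej j hj]
    exact mul_neg_of_pos_of_neg hN (hneg j hj)
  · intro i j hi hij
    rw [ej j (hi.trans hij), ej i hi]
    exact mul_lt_mul_of_pos_left (hc.ord i j hij) hN

theorem lB_pos (hA : AC 𝒜 N n f β E F) (hv : NoVec 𝒜 n f) {c : (Fin r → ℤ) →+ ℤ}
    (hc : Ch2 𝒜 n f c) : ∀ μ, Wt 𝒜 μ → 0 < c μ → μ ≠ f 0 - f 1 → 0 < lB N c f β μ := by
  obtain ⟨v0, v1, vt⟩ := vals hA
  have hn2 := hA.n2
  have hN := hA.N0
  have hc0 := hc0_of hA hc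
  have hc1 := hc.pos
  obtain ⟨b0, b1, bj⟩ := b01 hA
  have ne01 : (0 : Fin (n + 1)) ≠ 1 := by
    rw [Ne, Fin.ext_iff]
    omega
  have e0 : lB N c f β (f 0) = N * (c (f 0) + c (f 1)) := by
    rw [lB_apply, b0, map_sub]
    ring
  have e1 : lB N c f β (f 1) = N * (c (f 0) + c (f 1)) := by
    rw [lB_apply, b1, map_sub]
    ring
  have hneg : ∀ j : Fin (n + 1), 1 < j → c (f j) < 0 := fun j hj => hc.neg j (by
    rw [Fin.lt_def] at hj
    omega)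
  have ej : ∀ j : Fin (n + 1), 1 < j → lB N c f β (f j) = 2 * N * c (f j) := fun j hj => by
    rw [lB_apply, bj j hj]
    ring
  refine pos_of_x hA hv hc ?_ ?_ ?_ ?_ ?_ ?_ ?_ ?_
  · intro μ hμ hcμ
    rw [lB_apply, hμ 0 1 ne01, mul_zero, sub_zero]
    positivity
  · intro h
    exact absurd rfl h
  · intro _
    rw [e1]
    positivity
  · rw [e1]
    positivity
  · rw [e0, e1]
  · rw [e0]
    positivity
  · intro j hj
    rw [ej j hj]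
    exact mul_neg_of_pos_of_neg (by linarith) (hneg j hj)
  · intro i j hi hij
    rw [ej j (hi.trans hij), ej i hi]
    exact mul_lt_mul_of_pos_left (hc.ord i j hij) (by linarith)

/-- The point whose only negative weight is `-f 1`. -/
theorem wall_unique1 (H : Hyp 𝒜) (hA : AC 𝒜 N n f β E F) (hv : NoVec 𝒜 n f)
    {c : (Fin r → ℤ) →+ ℤ} (hc : Ch2 𝒜 n f c) {q q' : FP 𝒜} (hq : q.Pi (-f 1))
    (hoth : ∀ ψ, q.Pi ψ → ψ ≠ -f 1 → 0 < c ψ) (hq' : q'.Pi (-f 1))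
    (hoth' : ∀ ψ, q'.Pi ψ → ψ ≠ -f 1 → 0 < c ψ) : SamePoint 𝒜 q.q q'.q :=
  wall_gen H (lA N c f β) c hc.ne hc.pos (lA_b hA c) (lA_pos hA hv hc) hq hoth hq' hoth'

/-- The point whose only negative weight is `-(f 0 - f 1)`. -/
theorem wall_unique0 (H : Hyp 𝒜) (hA : AC 𝒜 N n f β E F) (hv : NoVec 𝒜 n f)
    {c : (Fin r → ℤ) →+ ℤ} (hc : Ch2 𝒜 n f c) {q q' : FP 𝒜} (hq : q.Pi (-(f 0 - f 1)))
    (hoth : ∀ ψ, q.Pi ψ → ψ ≠ -(f 0 - f 1) → 0 < c ψ) (hq' : q'.Pi (-(f 0 - f 1)))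
    (hoth' : ∀ ψ, q'.Pi ψ → ψ ≠ -(f 0 - f 1) → 0 < c ψ) : SamePoint 𝒜 q.q q'.q := by
  obtain ⟨v0, v1, vt⟩ := vals hA
  have h01 : (0 : Fin (n + 1)) < 1 := by
    rw [Fin.lt_def]
    omega
  have hb : 0 < c (f 0 - f 1) := by
    rw [map_sub]
    linarith [hc.ord 0 1 h01]
  exact wall_gen H (lB N c f β) c hc.ne hb (lB_b hA c) (lB_pos hA hv hc) hq hoth hq' hoth'

end Vale.Agent.P280.H900
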